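import Vale.Agent.Lib.P249.Main

namespace Vale.Agent.Lib.P249

open Finset

theorem log_two_mul_sq_le (n : ℕ) (hn : 1 ≤ n) :
    Real.log (2 * (n : ℝ) ^ 2) ≤ 2 * ((Nat.log 2 n : ℝ) + 3) := by
  set L := Nat.log 2 n with hL
  have h1 : n < 2 ^ (L + 1) := Nat.lt_pow_succ_log_self (by norm_num) n
  have h2 : (n : ℝ) ≤ 2 ^ (L + 1) := by exact_mod_cast h1.le
  have hn0 : (0 : ℝ) < n := by exact_mod_cast hn
  have h3 : 2 * (n : ℝ) ^ 2 ≤ 2 ^ (2 * L + 3) := by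
    have : (n : ℝ) ^ 2 ≤ (2 ^ (L + 1)) ^ 2 := pow_le_pow_left₀ hn0.le h2 2
    calc 2 * (n : ℝ) ^ 2 ≤ 2 * (2 ^ (L + 1)) ^ 2 := by linarith
      _ = 2 ^ (2 * L + 3) := by ring
  have h4 : Real.log (2 * (n : ℝ) ^ 2) ≤ Real.log (2 ^ (2 * L + 3)) :=
    Real.log_le_log (by positivity) h3
  rw [Real.log_pow] at h4
  have h5 : Real.log 2 ≤ 1 := by
    have := Real.log_le_sub_one_of_pos (by norm_num : (0 : ℝ) < 2)
    linarith
  have h6 : (0 : ℝ) ≤ ((2 * L + 3 : ℕ) : ℝ) := Nat.cast_nonneg _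
  have h7 : ((2 * L + 3 : ℕ) : ℝ) * Real.log 2 ≤ ((2 * L + 3 : ℕ) : ℝ) * 1 :=
    mul_le_mul_of_nonneg_left h5 h6
  push_cast at h4 h7
  linarith

/-- The explicit dimension bound. -/
noncomputable def dimBound (p D : ℝ) (n : ℕ) : ℝ :=
  2 ^ (p + 2) * ((D ^ p + 1) / (D ^ p - 1)) ^ 2 * n * ((Nat.log 2 n : ℝ) + 3) ^ (p + 3)

theorem raw_le_dimBound (p D : ℝ) (hp : 1 ≤ p) (hD : 1 < D) (n : ℕ) (hn : 1 ≤ n) :
    4 * (2 ^ (p - 1) * ((Nat.log 2 n + 1 : ℕ) : ℝ) ^ p *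
      (((Nat.log 2 n + 1) * (n * (Nat.log 2 n + 2 + 1)) : ℕ) : ℝ)) * Real.log (2 * (n : ℝ) ^ 2) /
        ((D ^ p - 1) / (D ^ p + 1)) ^ 2 ≤ dimBound p D n := by
  have hppos : 0 < p := by linarith
  have hDp : 1 < D ^ p := Real.one_lt_rpow hD hppos
  set L := Nat.log 2 n with hL
  set lam : ℝ := (L : ℝ) + 3 with hlam
  have hL0 : (0 : ℝ) ≤ L := Nat.cast_nonneg _
  have hlam0 : 0 < lam := by positivity
  have hn0 : (0 : ℝ) ≤ n := Nat.cast_nonneg _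
  have hlog := log_two_mul_sq_le n hn
  have hlog0 : 0 ≤ Real.log (2 * (n : ℝ) ^ 2) := by
    apply Real.log_nonneg
    have : (1 : ℝ) ≤ n := by exact_mod_cast hn
    nlinarith
  have h1 : ((L + 1 : ℕ) : ℝ) ^ p ≤ lam ^ p := by
    apply Real.rpow_le_rpow (Nat.cast_nonneg _) _ hppos.le
    push_cast; linarith
  have h2 : (((L + 1) * (n * (L + 2 + 1)) : ℕ) : ℝ) ≤ lam * (n * lam) := by
    push_cast
    have ha : (L : ℝ) + 1 ≤ lam := by linarith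
    have hb : (L : ℝ) + 2 + 1 = lam := by rw [hlam]; ring
    rw [hb]
    exact mul_le_mul_of_nonneg_right ha (by positivity)
  have h2p : (0 : ℝ) < 2 ^ (p - 1) := Real.rpow_pos_of_pos (by norm_num) _
  have hlamp : 0 < lam ^ p := Real.rpow_pos_of_pos hlam0 _
  have hnum : 4 * (2 ^ (p - 1) * ((L + 1 : ℕ) : ℝ) ^ p * (((L + 1) * (n * (L + 2 + 1)) : ℕ) : ℝ))
      * Real.log (2 * (n : ℝ) ^ 2) ≤ 4 * (2 ^ (p - 1) * lam ^ p * (lam * (n * lam))) * (2 * lam) := by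
    apply mul_le_mul _ hlog hlog0 (by positivity)
    apply mul_le_mul_of_nonneg_left _ (by norm_num)
    apply mul_le_mul _ h2 (Nat.cast_nonneg _) (by positivity)
    exact mul_le_mul_of_nonneg_left h1 h2p.le
  have hε : (0 : ℝ) < ((D ^ p - 1) / (D ^ p + 1)) ^ 2 := by
    have : 0 < (D ^ p - 1) / (D ^ p + 1) := by apply div_pos <;> linarith
    positivity
  calc _ ≤ 4 * (2 ^ (p - 1) * lam ^ p * (lam * (n * lam))) * (2 * lam) /
        ((D ^ p - 1) / (D ^ p + 1)) ^ 2 := div_le_div_of_nonneg_right hnum hε.le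
    _ = dimBound p D n := by
      unfold dimBound
      have e1 : (2 : ℝ) ^ (p + 2) = 2 ^ (p - 1) * 8 := by
        have : p + 2 = (p - 1) + 3 := by ring
        rw [this, Real.rpow_add (by norm_num)]
        norm_num
      have e2 : lam ^ (p + 3) = lam ^ p * lam ^ 3 := by
        rw [Real.rpow_add hlam0]
        norm_cast
      rw [e1, ← hL, ← hlam, e2]
      have hd1 : D ^ p - 1 ≠ 0 := by linarith
      have hd2 : D ^ p + 1 ≠ 0 := by linarith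
      field_simp
      ring

theorem embedsInto_dimBound (p D : ℝ) (hp : 1 ≤ p) (hD : 1 < D) (n : ℕ) (hn : 1 ≤ n)
    (m : ℕ) (x : Fin n → Fin m → ℝ) : LinearlyEmbedsInto p D x (⌊dimBound p D n⌋₊ + 1) := by
  apply embedsInto_of_lt p D hp hD n hn
  refine lt_of_le_of_lt (raw_le_dimBound p D hp hD n hn) ?_
  push_cast
  exact Nat.lt_floor_add_one _

theorem dimBound_nonneg (p D : ℝ) (n : ℕ) : 0 ≤ dimBound p D n := by
  unfold dimBound
  have : (0 : ℝ) ≤ (Nat.log 2 n : ℝ) + 3 := by positivity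
  positivity

theorem dimRed_le (p D : ℝ) (hp : 1 ≤ p) (hD : 1 < D) (n : ℕ) (hn : 1 ≤ n) :
    (dimRed p n D : ℝ) ≤ dimBound p D n + 1 := by
  have h1 : dimRed p n D ≤ ⌊dimBound p D n⌋₊ + 1 :=
    Nat.sInf_le fun m x _ => (embedsInto_dimBound p D hp hD n hn m x).embedsInto
  have h2 : ((⌊dimBound p D n⌋₊ + 1 : ℕ) : ℝ) ≤ dimBound p D n + 1 := by
    push_cast
    have := Nat.floor_le (dimBound_nonneg p D n)
    linarith
  exact le_trans (by exact_mod_cast h1) h2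

end Vale.Agent.Lib.P249
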