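import Mathlib

namespace Vale.Agent.Lib.P249

/-- The constant in the quasi-evenness of the Bregman divergence of `|·|^p`. -/
noncomputable def KK (p : ℝ) : ℝ := 4 * p ^ 2 * 3 ^ p

theorem three_rpow_ge (p : ℝ) (hp : 2 ≤ p) : (1 : ℝ) ≤ 3 ^ p :=
  Real.one_le_rpow (by norm_num) (by linarith)

theorem KK_ge (p : ℝ) (hp : 2 ≤ p) : 16 * 3 ^ p ≤ KK p := by
  unfold KK
  have h3 := three_rpow_ge p hp
  nlinarith [mul_self_nonneg (p - 2)]

/-- `(1+t)^p - 1 - p t ≥ t^2` for `t ≥ 0`. -/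
theorem bet_pos_lower (p : ℝ) (hp : 2 ≤ p) (t : ℝ) (ht : 0 ≤ t) :
    t ^ 2 ≤ (1 + t) ^ p - 1 - p * t := by
  have h1 : 1 + (p / 2) * t ≤ (1 + t) ^ (p / 2) :=
    one_add_mul_self_le_rpow_one_add (by linarith) (by linarith)
  have h2 : (1 + t) ^ p = ((1 + t) ^ (p / 2)) ^ 2 := by
    rw [← Real.rpow_natCast, ← Real.rpow_mul (by linarith)]
    congr 1; push_cast; ring
  have h0 : 0 ≤ 1 + (p / 2) * t := by positivity
  have h3 : (1 + (p / 2) * t) ^ 2 ≤ ((1 + t) ^ (p / 2)) ^ 2 := pow_le_pow_left₀ h0 h1 2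
  rw [h2]
  have e : (1 + (p / 2) * t) ^ 2 = 1 + p * t + (p / 2) ^ 2 * t ^ 2 := by ring
  have hp2 : 1 ≤ (p / 2) ^ 2 := by nlinarith
  have h5 : t ^ 2 ≤ (p / 2) ^ 2 * t ^ 2 := by nlinarith [sq_nonneg t]
  linarith

/-- `|1-t|^p - 1 + p t ≥ t^2/4` for `0 ≤ t ≤ 2`. -/
theorem bet_neg_lower (p : ℝ) (hp : 2 ≤ p) (t : ℝ) (ht : 0 ≤ t) (ht2 : t ≤ 2) :
    t ^ 2 / 4 ≤ |1 - t| ^ p - 1 + p * t := by
  by_cases h : p * t ≤ 2
  · have ht1 : t ≤ 1 := by nlinarith
    have h1 : 1 + (p / 2) * (-t) ≤ (1 + (-t)) ^ (p / 2) :=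
      one_add_mul_self_le_rpow_one_add (by linarith) (by linarith)
    have hb : (0 : ℝ) ≤ 1 + (-t) := by linarith
    have h2 : (1 + (-t)) ^ p = ((1 + (-t)) ^ (p / 2)) ^ 2 := by
      rw [← Real.rpow_natCast, ← Real.rpow_mul hb]
      congr 1; push_cast; ring
    have h0 : 0 ≤ 1 + (p / 2) * (-t) := by nlinarith
    have h3 : (1 + (p / 2) * (-t)) ^ 2 ≤ ((1 + (-t)) ^ (p / 2)) ^ 2 := pow_le_pow_left₀ h0 h1 2
    have h4 : |1 - t| = 1 + (-t) := by rw [abs_of_nonneg (by linarith)]; ring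
    rw [h4, h2]
    have e : (1 + (p / 2) * (-t)) ^ 2 = 1 - p * t + (p / 2) ^ 2 * t ^ 2 := by ring
    have hp2 : 1 ≤ (p / 2) ^ 2 := by nlinarith
    have h5 : t ^ 2 ≤ (p / 2) ^ 2 * t ^ 2 := by nlinarith [sq_nonneg t]
    nlinarith [sq_nonneg t]
  · have h5 : 0 ≤ |1 - t| ^ p := Real.rpow_nonneg (abs_nonneg _) _
    nlinarith

/-- `(1+t)^p - 1 - p t ≤ 3^p p^2 t^2` for `0 ≤ t ≤ 2`. -/
theorem bet_pos_upper (p : ℝ) (hp : 2 ≤ p) (t : ℝ) (ht : 0 ≤ t) (ht2 : t ≤ 2) :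
    (1 + t) ^ p - 1 - p * t ≤ 3 ^ p * (p ^ 2 * t ^ 2) := by
  have h3 := three_rpow_ge p hp
  by_cases h : p * t ≤ 1
  · have h1 : (1 + t) ^ p ≤ Real.exp (t * p) := by
      rw [Real.exp_mul]
      exact Real.rpow_le_rpow (by linarith) (by linarith [Real.add_one_le_exp t]) (by linarith)
    have h2 := Real.abs_exp_sub_one_sub_id_le (x := t * p)
      (by rw [abs_of_nonneg (by positivity)]; linarith)
    have h4 := (abs_le.mp h2).2
    have h5 : 0 ≤ p ^ 2 * t ^ 2 := by positivity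
    nlinarith
  · have h1 : (1 + t) ^ p ≤ 3 ^ p := Real.rpow_le_rpow (by linarith) (by linarith) (by linarith)
    have h5 : 1 ≤ p ^ 2 * t ^ 2 := by nlinarith
    have h6 : 0 ≤ p * t := by positivity
    nlinarith

/-- `|1-t|^p - 1 + p t ≤ 3^p p^2 t^2` for `0 ≤ t ≤ 2`. -/
theorem bet_neg_upper (p : ℝ) (hp : 2 ≤ p) (t : ℝ) (ht : 0 ≤ t) (ht2 : t ≤ 2) :
    |1 - t| ^ p - 1 + p * t ≤ 3 ^ p * (p ^ 2 * t ^ 2) := by
  have h3 := three_rpow_ge p hp
  by_cases h : p * t ≤ 1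
  · have ht1 : t ≤ 1 := by nlinarith
    have h4' : |1 - t| = 1 - t := abs_of_nonneg (by linarith)
    have h1 : (1 - t) ^ p ≤ Real.exp ((-t) * p) := by
      rw [Real.exp_mul]
      exact Real.rpow_le_rpow (by linarith) (by linarith [Real.add_one_le_exp (-t)]) (by linarith)
    have h2 := Real.abs_exp_sub_one_sub_id_le (x := (-t) * p)
      (by rw [abs_le]; constructor <;> nlinarith)
    have h4 := (abs_le.mp h2).2
    have h5 : 0 ≤ p ^ 2 * t ^ 2 := by positivity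
    rw [h4']
    nlinarith
  · have h0 : |1 - t| ≤ 1 := by rw [abs_le]; constructor <;> linarith
    have h1 : |1 - t| ^ p ≤ 1 := Real.rpow_le_one (abs_nonneg _) h0 (by linarith)
    have h5 : p * t ≤ p ^ 2 * t ^ 2 := by nlinarith
    nlinarith

theorem bet_pos_upper_big (p : ℝ) (hp : 2 ≤ p) (t : ℝ) (ht : 2 ≤ t) :
    (1 + t) ^ p - 1 - p * t ≤ 3 ^ p * (t / 2) ^ p := by
  have h1 : (1 + t) ^ p ≤ (3 * (t / 2)) ^ p :=
    Real.rpow_le_rpow (by linarith) (by linarith) (by linarith)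
  rw [Real.mul_rpow (by norm_num) (by linarith)] at h1
  have : 0 ≤ p * t := by positivity
  linarith

theorem bet_neg_lower_big (p : ℝ) (hp : 2 ≤ p) (t : ℝ) (ht : 2 ≤ t) :
    (t / 2) ^ p ≤ |1 - t| ^ p - 1 + p * t := by
  have h0 : t / 2 ≤ |1 - t| := by
    rw [abs_of_nonpos (by linarith)]; linarith
  have h1 : (t / 2) ^ p ≤ |1 - t| ^ p := Real.rpow_le_rpow (by linarith) h0 (by linarith)
  nlinarith

theorem sq_le_rpow_of_one_le (p : ℝ) (hp : 2 ≤ p) (t : ℝ) (ht : 1 ≤ t) : t ^ 2 ≤ t ^ p := by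
  have := Real.rpow_le_rpow_of_exponent_le ht hp
  rwa [Real.rpow_two] at this

theorem bet_neg_upper_big (p : ℝ) (hp : 2 ≤ p) (t : ℝ) (ht : 2 ≤ t) :
    |1 - t| ^ p - 1 + p * t ≤ 2 * t ^ p := by
  have h0 : |1 - t| ≤ t := by
    rw [abs_of_nonpos (by linarith)]; linarith
  have h1 : |1 - t| ^ p ≤ t ^ p := Real.rpow_le_rpow (abs_nonneg _) h0 (by linarith)
  -- p * t ≤ t ^ p
  have h2 : 1 + (p - 1) * 1 ≤ (1 + 1 : ℝ) ^ (p - 1) :=
    one_add_mul_self_le_rpow_one_add (by norm_num) (by linarith)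
  have h3 : (1 + 1 : ℝ) ^ (p - 1) ≤ t ^ (p - 1) :=
    Real.rpow_le_rpow (by norm_num) (by linarith) (by linarith)
  have h4 : t ^ p = t ^ (p - 1) * t := by
    rw [← Real.rpow_add_one (by linarith)]; congr 1; ring
  have h5 : p ≤ t ^ (p - 1) := by linarith
  have h6 : p * t ≤ t ^ (p - 1) * t := mul_le_mul_of_nonneg_right h5 (by linarith)
  linarith

theorem bet_pos_lower_big (p : ℝ) (hp : 2 ≤ p) (t : ℝ) (ht : 2 ≤ t) :
    t ^ p / 2 ≤ (1 + t) ^ p - 1 - p * t := by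
  have ht0 : 0 < t := by linarith
  have h1 : 1 + p * (1 / t) ≤ (1 + 1 / t) ^ p :=
    one_add_mul_self_le_rpow_one_add (by have : 0 < 1 / t := by positivity
                                         linarith) (by linarith)
  have h2 : (1 + t) ^ p = t ^ p * (1 + 1 / t) ^ p := by
    rw [← Real.mul_rpow ht0.le (by positivity)]
    congr 1; field_simp; ring
  have htp : 0 < t ^ p := Real.rpow_pos_of_pos ht0 _
  have h3 : t ^ p * (1 + p * (1 / t)) ≤ t ^ p * (1 + 1 / t) ^ p :=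
    mul_le_mul_of_nonneg_left h1 htp.le
  have h4 := sq_le_rpow_of_one_le p hp t (by linarith)
  have h5 : p * t ≤ t ^ p * (p * (1 / t)) := by
    have : t ^ p * (p * (1 / t)) = p * (t ^ p / t) := by field_simp
    rw [this]
    apply mul_le_mul_of_nonneg_left _ (by linarith)
    rw [le_div_iff₀ ht0]; nlinarith
  have h6 : (4 : ℝ) ≤ t ^ p := by nlinarith
  rw [h2]
  nlinarith

/-- Quasi-evenness of `s ↦ |1+s|^p - 1 - p s`. -/
theorem bet_le (p : ℝ) (hp : 2 ≤ p) (s : ℝ) :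
    |1 + s| ^ p - 1 - p * s ≤ KK p * (|1 - s| ^ p - 1 + p * s) := by
  have h3 := three_rpow_ge p hp
  have hK := KK_ge p hp
  rcases le_or_gt 0 s with hs | hs
  · rw [abs_of_nonneg (by linarith : 0 ≤ 1 + s)]
    rcases le_or_gt s 2 with h2 | h2
    · have ha := bet_pos_upper p hp s hs h2
      have hb := bet_neg_lower p hp s hs h2
      have hc : KK p * (s ^ 2 / 4) ≤ KK p * (|1 - s| ^ p - 1 + p * s) :=
        mul_le_mul_of_nonneg_left hb (by linarith)
      have hd : KK p * (s ^ 2 / 4) = 3 ^ p * (p ^ 2 * s ^ 2) := by unfold KK; ring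
      linarith
    · have ha := bet_pos_upper_big p hp s h2.le
      have hb := bet_neg_lower_big p hp s h2.le
      have h0 : 0 ≤ (s / 2) ^ p := Real.rpow_nonneg (by linarith) _
      have hc : KK p * (s / 2) ^ p ≤ KK p * (|1 - s| ^ p - 1 + p * s) :=
        mul_le_mul_of_nonneg_left hb (by linarith)
      have hd : 3 ^ p * (s / 2) ^ p ≤ KK p * (s / 2) ^ p :=
        mul_le_mul_of_nonneg_right (by linarith) h0
      linarith
  · obtain ⟨t, rfl⟩ : ∃ t, s = -t := ⟨-s, by ring⟩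
    have ht : 0 < t := by linarith
    have e1 : (1 : ℝ) + -t = 1 - t := by ring
    have e2 : (1 : ℝ) - -t = 1 + t := by ring
    rw [e1, e2, abs_of_nonneg (by linarith : 0 ≤ 1 + t)]
    rcases le_or_gt t 2 with h2 | h2
    · have ha := bet_neg_upper p hp t ht.le h2
      have hb := bet_pos_lower p hp t ht.le
      have hc : KK p * (t ^ 2) ≤ KK p * ((1 + t) ^ p - 1 - p * t) :=
        mul_le_mul_of_nonneg_left hb (by linarith)
      have hd : 3 ^ p * (p ^ 2 * t ^ 2) ≤ KK p * t ^ 2 := by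
        unfold KK
        have : 0 ≤ 3 ^ p * (p ^ 2 * t ^ 2) := by positivity
        nlinarith
      nlinarith
    · have ha := bet_neg_upper_big p hp t h2.le
      have hb := bet_pos_lower_big p hp t h2.le
      have h0 : 0 ≤ t ^ p := Real.rpow_nonneg (by linarith) _
      have hc : KK p * (t ^ p / 2) ≤ KK p * ((1 + t) ^ p - 1 - p * t) :=
        mul_le_mul_of_nonneg_left hb (by linarith)
      have hd : 2 * t ^ p ≤ KK p * (t ^ p / 2) := by nlinarith
      nlinarith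

/-- Quasi-evenness of the Bregman divergence of `|·|^p`. -/
theorem breg_le (p : ℝ) (hp : 2 ≤ p) (a d : ℝ) :
    |a + d| ^ p - |a| ^ p - p * (|a| ^ (p - 2) * a) * d ≤
      KK p * (|a - d| ^ p - |a| ^ p + p * (|a| ^ (p - 2) * a) * d) := by
  have h3 := three_rpow_ge p hp
  have hK := KK_ge p hp
  by_cases ha : a = 0
  · subst ha
    have h0 : (0 : ℝ) ^ p = 0 := Real.zero_rpow (by linarith)
    have h1 : 0 ≤ |d| ^ p := Real.rpow_nonneg (abs_nonneg _) _
    simp only [zero_add, zero_sub, abs_zero, abs_neg, h0, mul_zero, zero_mul, sub_zero, add_zero]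
    nlinarith
  · have hpos : 0 < |a| := abs_pos.mpr ha
    have hap : 0 < |a| ^ p := Real.rpow_pos_of_pos hpos _
    have e1 : |a + d| ^ p = |a| ^ p * |1 + d / a| ^ p := by
      rw [← Real.mul_rpow (abs_nonneg _) (abs_nonneg _), ← abs_mul]
      congr 2; field_simp
    have e2 : |a - d| ^ p = |a| ^ p * |1 - d / a| ^ p := by
      rw [← Real.mul_rpow (abs_nonneg _) (abs_nonneg _), ← abs_mul]
      congr 2; field_simp
    have e3 : |a| ^ (p - 2) * a * d = |a| ^ p * (d / a) := by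
      have : |a| ^ p = |a| ^ (p - 2) * |a| ^ 2 := by
        rw [← Real.rpow_natCast, ← Real.rpow_add hpos]; congr 1; push_cast; ring
      rw [this, sq_abs]; field_simp
    have h := bet_le p hp (d / a)
    have h' := mul_le_mul_of_nonneg_left h hap.le
    have e4 : p * (|a| ^ (p - 2) * a) * d = p * (|a| ^ p * (d / a)) := by rw [← e3]; ring
    rw [e1, e2, e4]
    nlinarith

end Vale.Agent.Lib.P249
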