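import Mathlib

namespace Vale.Agent.Lib.P249

open Finset

theorem exp_mul_le_affine (c u : ℝ) (h0 : 0 ≤ u) (h1 : u ≤ 1) :
    Real.exp (c * u) ≤ 1 + u * (Real.exp c - 1) := by
  have h := convexOn_exp.2 (Set.mem_univ (0 : ℝ)) (Set.mem_univ c) (sub_nonneg.mpr h1) h0
    (by ring)
  simp only [smul_eq_mul, mul_zero, zero_add, Real.exp_zero, mul_one] at h
  calc Real.exp (c * u) = Real.exp (u * c) := by rw [mul_comm]
    _ ≤ 1 - u + u * Real.exp c := h
    _ = 1 + u * (Real.exp c - 1) := by ring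

section

variable {J : Type} [Fintype J] [DecidableEq J]

theorem sum_prod_weights (w : J → ℝ) (g : J → ℝ) (N : ℕ) :
    ∑ f : Fin N → J, (∏ i, w (f i)) * (∏ i, g (f i)) = (∑ j, w j * g j) ^ N := by
  have h := Fintype.prod_sum (fun (_ : Fin N) (j : J) => w j * g j)
  simp only [Finset.prod_const, Finset.card_univ, Fintype.card_fin] at h
  rw [h]
  exact Finset.sum_congr rfl fun f _ => by rw [Finset.prod_mul_distrib]

theorem mgf_bound (w : J → ℝ) (hw0 : ∀ j, 0 ≤ w j) (hw1 : ∑ j, w j = 1) (u : J → ℝ)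
    (hu0 : ∀ j, 0 ≤ u j) (hu1 : ∀ j, u j ≤ 1) (c : ℝ) (N : ℕ) :
    ∑ f : Fin N → J, (∏ i, w (f i)) * Real.exp (c * ∑ i, u (f i)) ≤
      Real.exp (N * ((∑ j, w j * u j) * (Real.exp c - 1))) := by
  have h1 : ∀ f : Fin N → J, Real.exp (c * ∑ i, u (f i)) = ∏ i, Real.exp (c * u (f i)) := by
    intro f
    rw [Finset.mul_sum, Real.exp_sum]
  simp_rw [h1]
  rw [sum_prod_weights w (fun j => Real.exp (c * u j)) N]
  have h2 : ∑ j, w j * Real.exp (c * u j) ≤ 1 + (∑ j, w j * u j) * (Real.exp c - 1) := by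
    calc ∑ j, w j * Real.exp (c * u j) ≤ ∑ j, w j * (1 + u j * (Real.exp c - 1)) :=
          Finset.sum_le_sum fun j _ =>
            mul_le_mul_of_nonneg_left (exp_mul_le_affine c (u j) (hu0 j) (hu1 j)) (hw0 j)
      _ = 1 + (∑ j, w j * u j) * (Real.exp c - 1) := by
          have : ∀ j, w j * (1 + u j * (Real.exp c - 1)) = w j + (w j * u j) * (Real.exp c - 1) :=
            fun j => by ring
          simp_rw [this]
          rw [Finset.sum_add_distrib, hw1, Finset.sum_mul]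
  have h3 : 0 ≤ ∑ j, w j * Real.exp (c * u j) :=
    Finset.sum_nonneg fun j _ => mul_nonneg (hw0 j) (Real.exp_pos _).le
  calc (∑ j, w j * Real.exp (c * u j)) ^ N
      ≤ (Real.exp ((∑ j, w j * u j) * (Real.exp c - 1))) ^ N := by
        apply pow_le_pow_left₀ h3
        refine h2.trans ?_
        have := Real.add_one_le_exp ((∑ j, w j * u j) * (Real.exp c - 1))
        linarith
    _ = Real.exp (N * ((∑ j, w j * u j) * (Real.exp c - 1))) := by
        rw [← Real.exp_nat_mul]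

/-- Multiplicative Chernoff bound plus union bound, in averaging form: if each test function
`u e : J → [0,1]` has mean `μ` under the weights `w`, then some sample of size `N` has all
empirical sums within a factor `1 ± ε` of `N μ`, provided `2 |P| exp (- N μ ε² / 4) < 1`. -/
theorem exists_good_sample {P : Type} [Fintype P] (w : J → ℝ) (hw0 : ∀ j, 0 ≤ w j)
    (hw1 : ∑ j, w j = 1) (u : P → J → ℝ) (hu0 : ∀ e j, 0 ≤ u e j) (hu1 : ∀ e j, u e j ≤ 1)
    (μ : ℝ) (hμ0 : 0 ≤ μ) (hμ : ∀ e, ∑ j, w j * u e j = μ) (ε : ℝ) (hε0 : 0 < ε) (hε1 : ε ≤ 1)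
    (N : ℕ)
    (hN : 2 * (Fintype.card P : ℝ) * Real.exp (-(N * μ * ε ^ 2 / 4)) < 1) :
    ∃ f : Fin N → J, ∀ e, (1 - ε) * (N * μ) < ∑ i, u e (f i) ∧
      ∑ i, u e (f i) < (1 + ε) * (N * μ) := by
  set lam : ℝ := ε / 2 with hlam
  have hlam0 : 0 < lam := by positivity
  have hlam1 : |lam| ≤ 1 := by rw [abs_of_pos hlam0]; linarith
  have hlam1' : |-lam| ≤ 1 := by rw [abs_neg]; exact hlam1
  have hexp1 : Real.exp lam - 1 ≤ lam + lam ^ 2 := by
    have := (abs_le.mp (Real.abs_exp_sub_one_sub_id_le hlam1)).2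
    linarith
  have hexp2 : Real.exp (-lam) - 1 ≤ -lam + lam ^ 2 := by
    have := (abs_le.mp (Real.abs_exp_sub_one_sub_id_le hlam1')).2
    have h2 : (-lam) ^ 2 = lam ^ 2 := by ring
    linarith
  set wt : (Fin N → J) → ℝ := fun f => ∏ i, w (f i) with hwt
  have hwt0 : ∀ f, 0 ≤ wt f := fun f => Finset.prod_nonneg fun i _ => hw0 _
  have hwt1 : ∑ f, wt f = 1 := by
    have := sum_prod_weights w (fun _ => 1) N
    simp only [Finset.prod_const_one, mul_one, hw1, one_pow] at this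
    exact this
  set Φ : (Fin N → J) → ℝ := fun f => ∑ e, (Real.exp (lam * (∑ i, u e (f i)) - lam * ((1 + ε) * (N * μ)))
    + Real.exp (-lam * (∑ i, u e (f i)) + lam * ((1 - ε) * (N * μ)))) with hΦ
  have hNμ : 0 ≤ (N : ℝ) * μ := by positivity
  have hup : ∀ e, ∑ f, wt f * Real.exp (lam * (∑ i, u e (f i)) - lam * ((1 + ε) * (N * μ))) ≤
      Real.exp (-(N * μ * ε ^ 2 / 4)) := by
    intro e
    have h1 := mgf_bound w hw0 hw1 (u e) (hu0 e) (hu1 e) lam N
    rw [hμ e] at h1
    calc ∑ f, wt f * Real.exp (lam * (∑ i, u e (f i)) - lam * ((1 + ε) * (N * μ)))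
        = (∑ f, wt f * Real.exp (lam * (∑ i, u e (f i)))) * Real.exp (-(lam * ((1 + ε) * (N * μ)))) := by
          rw [Finset.sum_mul]
          refine Finset.sum_congr rfl fun f _ => ?_
          rw [sub_eq_add_neg, Real.exp_add]; ring
      _ ≤ Real.exp (N * (μ * (Real.exp lam - 1))) * Real.exp (-(lam * ((1 + ε) * (N * μ)))) :=
          mul_le_mul_of_nonneg_right h1 (Real.exp_pos _).le
      _ = Real.exp (N * (μ * (Real.exp lam - 1)) - lam * ((1 + ε) * (N * μ))) := by
          rw [← Real.exp_add]; ring_nf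
      _ ≤ Real.exp (-(N * μ * ε ^ 2 / 4)) := by
          apply Real.exp_le_exp.mpr
          have : (N : ℝ) * (μ * (Real.exp lam - 1)) ≤ N * μ * (lam + lam ^ 2) := by
            rw [← mul_assoc]
            exact mul_le_mul_of_nonneg_left hexp1 hNμ
          have h3 : (N : ℝ) * μ * (lam + lam ^ 2) - lam * ((1 + ε) * (N * μ)) = -(N * μ * ε ^ 2 / 4) := by
            rw [hlam]; ring
          linarith
  have hdn : ∀ e, ∑ f, wt f * Real.exp (-lam * (∑ i, u e (f i)) + lam * ((1 - ε) * (N * μ))) ≤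
      Real.exp (-(N * μ * ε ^ 2 / 4)) := by
    intro e
    have h1 := mgf_bound w hw0 hw1 (u e) (hu0 e) (hu1 e) (-lam) N
    rw [hμ e] at h1
    calc ∑ f, wt f * Real.exp (-lam * (∑ i, u e (f i)) + lam * ((1 - ε) * (N * μ)))
        = (∑ f, wt f * Real.exp (-lam * (∑ i, u e (f i)))) * Real.exp (lam * ((1 - ε) * (N * μ))) := by
          rw [Finset.sum_mul]
          refine Finset.sum_congr rfl fun f _ => ?_
          rw [Real.exp_add]; ring
      _ ≤ Real.exp (N * (μ * (Real.exp (-lam) - 1))) * Real.exp (lam * ((1 - ε) * (N * μ))) :=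
          mul_le_mul_of_nonneg_right h1 (Real.exp_pos _).le
      _ = Real.exp (N * (μ * (Real.exp (-lam) - 1)) + lam * ((1 - ε) * (N * μ))) := by
          rw [← Real.exp_add]
      _ ≤ Real.exp (-(N * μ * ε ^ 2 / 4)) := by
          apply Real.exp_le_exp.mpr
          have : (N : ℝ) * (μ * (Real.exp (-lam) - 1)) ≤ N * μ * (-lam + lam ^ 2) := by
            rw [← mul_assoc]
            exact mul_le_mul_of_nonneg_left hexp2 hNμ
          have h3 : (N : ℝ) * μ * (-lam + lam ^ 2) + lam * ((1 - ε) * (N * μ)) = -(N * μ * ε ^ 2 / 4) := by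
            rw [hlam]; ring
          linarith
  have havg : ∑ f, wt f * Φ f < 1 := by
    calc ∑ f, wt f * Φ f
        = ∑ e, ((∑ f, wt f * Real.exp (lam * (∑ i, u e (f i)) - lam * ((1 + ε) * (N * μ)))) +
            ∑ f, wt f * Real.exp (-lam * (∑ i, u e (f i)) + lam * ((1 - ε) * (N * μ)))) := by
          simp only [hΦ, Finset.mul_sum, mul_add, Finset.sum_add_distrib]
          congr 1 <;> exact Finset.sum_comm
      _ ≤ ∑ _e : P, (Real.exp (-(N * μ * ε ^ 2 / 4)) + Real.exp (-(N * μ * ε ^ 2 / 4))) :=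
          Finset.sum_le_sum fun e _ => add_le_add (hup e) (hdn e)
      _ = 2 * (Fintype.card P : ℝ) * Real.exp (-(N * μ * ε ^ 2 / 4)) := by
          rw [Finset.sum_const, Finset.card_univ, nsmul_eq_mul]; ring
      _ < 1 := hN
  have hex : ∃ f, Φ f < 1 := by
    by_contra hcon
    push Not at hcon
    have : (1 : ℝ) ≤ ∑ f, wt f * Φ f := by
      calc (1 : ℝ) = ∑ f, wt f * 1 := by simp [hwt1]
        _ ≤ ∑ f, wt f * Φ f :=
          Finset.sum_le_sum fun f _ => mul_le_mul_of_nonneg_left (hcon f) (hwt0 f)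
    linarith
  obtain ⟨f, hf⟩ := hex
  refine ⟨f, fun e => ?_⟩
  have hterm : Real.exp (lam * (∑ i, u e (f i)) - lam * ((1 + ε) * (N * μ)))
      + Real.exp (-lam * (∑ i, u e (f i)) + lam * ((1 - ε) * (N * μ))) < 1 := by
    refine lt_of_le_of_lt ?_ hf
    exact Finset.single_le_sum (f := fun e => (Real.exp (lam * (∑ i, u e (f i)) - lam * ((1 + ε) * (N * μ)))
      + Real.exp (-lam * (∑ i, u e (f i)) + lam * ((1 - ε) * (N * μ)))))
      (fun e _ => add_nonneg (Real.exp_pos _).le (Real.exp_pos _).le) (Finset.mem_univ e)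
  have ha : Real.exp (lam * (∑ i, u e (f i)) - lam * ((1 + ε) * (N * μ))) < 1 := by
    have := Real.exp_pos (-lam * (∑ i, u e (f i)) + lam * ((1 - ε) * (N * μ)))
    linarith
  have hb : Real.exp (-lam * (∑ i, u e (f i)) + lam * ((1 - ε) * (N * μ))) < 1 := by
    have := Real.exp_pos (lam * (∑ i, u e (f i)) - lam * ((1 + ε) * (N * μ)))
    linarith
  rw [Real.exp_lt_one_iff] at ha hb
  constructor
  · have : lam * ((1 - ε) * (N * μ)) < lam * (∑ i, u e (f i)) := by linarith
    exact lt_of_mul_lt_mul_left this hlam0.le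
  · have : lam * (∑ i, u e (f i)) < lam * ((1 + ε) * (N * μ)) := by linarith
    exact lt_of_mul_lt_mul_left this hlam0.le

end

end Vale.Agent.Lib.P249
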