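import Mathlib

namespace Vale.Agent.Lib.P249

/-- The norm of `ℓ_p^d`. -/
noncomputable def lpNorm (p : ℝ) {d : ℕ} (y : Fin d → ℝ) : ℝ := (∑ k, |y k| ^ p) ^ (1 / p)

/-- The points `x 0, ..., x (n-1)` of `ℓ_p^m` admit a map into `ℓ_p^d` with distortion at most `D`. -/
def EmbedsInto (p D : ℝ) {n m : ℕ} (x : Fin n → Fin m → ℝ) (d : ℕ) : Prop :=
  ∃ (f : Fin n → Fin d → ℝ) (s : ℝ), 0 < s ∧ ∀ a b,
    s * lpNorm p (x a - x b) ≤ lpNorm p (f a - f b) ∧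
      lpNorm p (f a - f b) ≤ D * s * lpNorm p (x a - x b)

/-- The points `x 0, ..., x (n-1)` of `ℓ_p^m` are mapped into `ℓ_p^d` with distortion at most `D`
by the restriction of a linear map `ℝ^m → ℝ^d`. -/
def LinearlyEmbedsInto (p D : ℝ) {n m : ℕ} (x : Fin n → Fin m → ℝ) (d : ℕ) : Prop :=
  ∃ (A : (Fin m → ℝ) →ₗ[ℝ] (Fin d → ℝ)) (s : ℝ), 0 < s ∧ ∀ a b,
    s * lpNorm p (x a - x b) ≤ lpNorm p (A (x a) - A (x b)) ∧
      lpNorm p (A (x a) - A (x b)) ≤ D * s * lpNorm p (x a - x b)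

/-- `d_p(n, D)`: the least `d` such that every `n`-point subset of every `ℓ_p^m` admits a map
into `ℓ_p^d` with distortion at most `D`. -/
noncomputable def dimRed (p : ℝ) (n : ℕ) (D : ℝ) : ℕ :=
  sInf {d : ℕ | ∀ (m : ℕ) (x : Fin n → Fin m → ℝ), Function.Injective x → EmbedsInto p D x d}

end Vale.Agent.Lib.P249
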