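import Vale.Agent.Lib.P249.Breg

namespace Vale.Agent.Lib.P249

open Finset

section

variable {V J : Type} [Fintype V] [DecidableEq V] [DecidableEq J]
variable (p : ℝ) (src dst : J → V) (c : J → ℝ) (E : Finset J)

/-- The `p`-energy of a function on the vertices of a network with edge set `E`, endpoints
`src`, `dst` and conductances `c`. -/
noncomputable def en (f : V → ℝ) : ℝ := ∑ j ∈ E, c j * |f (src j) - f (dst j)| ^ p

/-- The linearisation of the energy at `h` (up to the factor `p`). -/
noncomputable def LL (h w : V → ℝ) : ℝ :=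
  ∑ j ∈ E, c j * ((|h (src j) - h (dst j)| ^ (p - 2) * (h (src j) - h (dst j))) *
    (w (src j) - w (dst j)))

variable {p src dst c E}

omit [Fintype V] [DecidableEq V] [DecidableEq J] in
theorem en_nonneg (hc : ∀ j, 0 ≤ c j) (f : V → ℝ) : 0 ≤ en p src dst c E f :=
  Finset.sum_nonneg fun j _ => mul_nonneg (hc j) (Real.rpow_nonneg (abs_nonneg _) _)

omit [Fintype V] [DecidableEq V] [DecidableEq J] in
theorem term_le_en (hc : ∀ j, 0 ≤ c j) (f : V → ℝ) (j : J) (hj : j ∈ E) :
    c j * |f (src j) - f (dst j)| ^ p ≤ en p src dst c E f :=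
  Finset.single_le_sum (f := fun j => c j * |f (src j) - f (dst j)| ^ p)
    (fun j _ => mul_nonneg (hc j) (Real.rpow_nonneg (abs_nonneg _) _)) hj

omit [Fintype V] [DecidableEq V] [DecidableEq J] in
theorem en_affine (k b : ℝ) (f : V → ℝ) :
    en p src dst c E (fun v => k * f v + b) = |k| ^ p * en p src dst c E f := by
  unfold en
  rw [Finset.mul_sum]
  refine Finset.sum_congr rfl fun j _ => ?_
  have : k * f (src j) + b - (k * f (dst j) + b) = k * (f (src j) - f (dst j)) := by ring
  rw [this, abs_mul, Real.mul_rpow (abs_nonneg _) (abs_nonneg _)]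
  ring

omit [Fintype V] [DecidableEq V] [DecidableEq J] in
theorem en_le_add (hp : 0 ≤ p) (hc : ∀ j, 0 ≤ c j) (F f g : V → ℝ)
    (h : ∀ a b, |F a - F b| ≤ max |f a - f b| |g a - g b|) :
    en p src dst c E F ≤ en p src dst c E f + en p src dst c E g := by
  unfold en
  rw [← Finset.sum_add_distrib]
  refine Finset.sum_le_sum fun j _ => ?_
  rw [← mul_add]
  apply mul_le_mul_of_nonneg_left _ (hc j)
  have h1 := Real.rpow_le_rpow (abs_nonneg _) (h (src j) (dst j)) hp
  have hf : 0 ≤ |f (src j) - f (dst j)| ^ p := Real.rpow_nonneg (abs_nonneg _) _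
  have hg : 0 ≤ |g (src j) - g (dst j)| ^ p := Real.rpow_nonneg (abs_nonneg _) _
  rcases le_total |f (src j) - f (dst j)| |g (src j) - g (dst j)| with h2 | h2
  · rw [max_eq_right h2] at h1; linarith
  · rw [max_eq_left h2] at h1; linarith

omit [Fintype V] [DecidableEq V] [DecidableEq J] in
theorem en_le_of_contraction (hp : 0 ≤ p) (hc : ∀ j, 0 ≤ c j) (F f : V → ℝ)
    (h : ∀ a b, |F a - F b| ≤ |f a - f b|) :
    en p src dst c E F ≤ en p src dst c E f := by
  unfold en
  refine Finset.sum_le_sum fun j _ => ?_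
  exact mul_le_mul_of_nonneg_left (Real.rpow_le_rpow (abs_nonneg _) (h _ _) hp) (hc j)

omit [Fintype V] [DecidableEq V] [DecidableEq J] in
theorem en_continuous (hp : 0 ≤ p) : Continuous (en p src dst c E) := by
  unfold en
  refine continuous_finsetSum _ fun j _ => continuous_const.mul ?_
  exact (((continuous_apply (src j)).sub (continuous_apply (dst j))).abs).rpow_const
    fun _ => Or.inr hp

omit [DecidableEq J] in
/-- Existence of a capacitary potential with values in `[0,1]`. -/
theorem exists_min (hp : 0 ≤ p) (hc : ∀ j, 0 ≤ c j) (x y : V) (hxy : x ≠ y) :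
    ∃ h : V → ℝ, h x = 1 ∧ h y = 0 ∧ (∀ v, 0 ≤ h v ∧ h v ≤ 1) ∧
      ∀ f : V → ℝ, f x = 1 → f y = 0 → en p src dst c E h ≤ en p src dst c E f := by
  have hK : IsCompact (Set.Icc (0 : V → ℝ) 1 ∩ {f | f x = 1 ∧ f y = 0}) := by
    apply isCompact_Icc.inter_right
    exact (isClosed_eq (continuous_apply x) continuous_const).inter
      (isClosed_eq (continuous_apply y) continuous_const)
  have hne : (Set.Icc (0 : V → ℝ) 1 ∩ {f | f x = 1 ∧ f y = 0}).Nonempty := by
    refine ⟨fun v => if v = x then 1 else 0, ⟨?_, ?_⟩, ?_, ?_⟩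
    · intro v; dsimp only; split_ifs <;> simp
    · intro v; dsimp only; split_ifs <;> simp
    · simp
    · simp [hxy.symm]
  obtain ⟨h, hhK, hmin⟩ := hK.exists_isMinOn hne (en_continuous (src := src) (dst := dst)
    (c := c) (E := E) hp).continuousOn
  obtain ⟨⟨h0, h1⟩, hx, hy⟩ := hhK
  refine ⟨h, hx, hy, fun v => ⟨h0 v, h1 v⟩, fun f fx fy => ?_⟩
  have hcl : (fun v => max 0 (min 1 (f v))) ∈ Set.Icc (0 : V → ℝ) 1 ∩ {f | f x = 1 ∧ f y = 0} := by
    refine ⟨⟨fun v => le_max_left _ _, fun v => max_le zero_le_one (min_le_left _ _)⟩, ?_, ?_⟩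
    · simp [fx]
    · simp [fy]
  refine (hmin hcl).trans (en_le_of_contraction hp hc _ _ fun a b => ?_)
  calc |max 0 (min 1 (f a)) - max 0 (min 1 (f b))|
      ≤ max |(0 : ℝ) - 0| |min 1 (f a) - min 1 (f b)| := abs_max_sub_max_le_max _ _ _ _
    _ ≤ max |(0 : ℝ) - 0| (max |(1 : ℝ) - 1| |f a - f b|) :=
        max_le_max le_rfl (abs_min_sub_min_le_max _ _ _ _)
    _ = |f a - f b| := by simp

omit [Fintype V] [DecidableEq V] [DecidableEq J] in
theorem scale_bound (hp : 0 < p) (hc : ∀ j, 0 ≤ c j) (x y : V) (I : ℝ)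
    (hmin : ∀ f : V → ℝ, f x = 1 → f y = 0 → I ≤ en p src dst c E f) (f : V → ℝ) :
    I * |f x - f y| ^ p ≤ en p src dst c E f := by
  by_cases h : f x = f y
  · rw [h, sub_self, abs_zero, Real.zero_rpow hp.ne', mul_zero]
    exact en_nonneg hc f
  · have hD : f x - f y ≠ 0 := sub_ne_zero.mpr h
    have h1 := hmin (fun v => (f x - f y)⁻¹ * f v + (-(f x - f y)⁻¹ * f y))
      (by field_simp; ring) (by ring)
    rw [en_affine, abs_inv, Real.inv_rpow (abs_nonneg _)] at h1
    have hpos : 0 < |f x - f y| ^ p := Real.rpow_pos_of_pos (abs_pos.mpr hD) _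
    calc I * |f x - f y| ^ p ≤ ((|f x - f y| ^ p)⁻¹ * en p src dst c E f) * |f x - f y| ^ p :=
          mul_le_mul_of_nonneg_right h1 hpos.le
      _ = en p src dst c E f := by field_simp

omit [Fintype V] [DecidableEq V] [DecidableEq J] in
theorem LL_sub (h w1 w2 : V → ℝ) :
    LL p src dst c E h (fun v => w1 v - w2 v) = LL p src dst c E h w1 - LL p src dst c E h w2 := by
  unfold LL
  rw [← Finset.sum_sub_distrib]
  refine Finset.sum_congr rfl fun j _ => ?_
  ring

omit [Fintype V] [DecidableEq V] [DecidableEq J] in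
theorem LL_self (hp : 2 ≤ p) (h : V → ℝ) : LL p src dst c E h h = en p src dst c E h := by
  unfold LL en
  refine Finset.sum_congr rfl fun j _ => ?_
  congr 1
  set a := h (src j) - h (dst j)
  by_cases ha : a = 0
  · rw [ha]; simp [Real.zero_rpow (by linarith : p ≠ 0)]
  · have hpos : 0 < |a| := abs_pos.mpr ha
    have : |a| ^ p = |a| ^ (p - 2) * |a| ^ 2 := by
      rw [← Real.rpow_natCast, ← Real.rpow_add hpos]; congr 1; push_cast; ring
    rw [this, sq_abs]; ring

omit [Fintype V] [DecidableEq V] [DecidableEq J] in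
/-- First order condition at a minimiser. -/
theorem first_order (hp : 2 ≤ p) (h w : V → ℝ)
    (hmin : ∀ s : ℝ, en p src dst c E h ≤ en p src dst c E (fun v => h v + s * w v)) :
    LL p src dst c E h w = 0 := by
  have hd : HasDerivAt (fun s : ℝ => en p src dst c E (fun v => h v + s * w v))
      (∑ j ∈ E, c j * ((p * |h (src j) - h (dst j)| ^ (p - 2) * (h (src j) - h (dst j))) *
        (w (src j) - w (dst j)))) 0 := by
    unfold en
    refine HasDerivAt.fun_sum fun j _ => HasDerivAt.const_mul _ ?_
    have h1 : HasDerivAt (fun s : ℝ => (h (src j) - h (dst j)) + s * (w (src j) - w (dst j)))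
        (w (src j) - w (dst j)) 0 := by
      simpa using ((hasDerivAt_id (0 : ℝ)).mul_const (w (src j) - w (dst j))).const_add
        (h (src j) - h (dst j))
    have h2 := hasDerivAt_abs_rpow ((h (src j) - h (dst j)) + 0 * (w (src j) - w (dst j)))
      (p := p) (by linarith)
    have h3 := HasDerivAt.comp (0 : ℝ) h2 h1
    simp only [zero_mul, add_zero] at h3
    refine h3.congr_of_eventuallyEq (Filter.Eventually.of_forall fun s => ?_)
    simp only [Function.comp]
    congr 2; ring
  have hloc : IsLocalMin (fun s : ℝ => en p src dst c E (fun v => h v + s * w v)) 0 := by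
    refine Filter.Eventually.of_forall fun s => ?_
    simpa using hmin s
  have h0 := hloc.hasDerivAt_eq_zero hd
  have h1 : (∑ j ∈ E, c j * ((p * |h (src j) - h (dst j)| ^ (p - 2) * (h (src j) - h (dst j))) *
        (w (src j) - w (dst j)))) = p * LL p src dst c E h w := by
    unfold LL
    rw [Finset.mul_sum]
    refine Finset.sum_congr rfl fun j _ => ?_
    ring
  rw [h1] at h0
  rcases mul_eq_zero.mp h0 with h2 | h2
  · linarith
  · exact h2

omit [Fintype V] [DecidableEq V] [DecidableEq J] in
/-- Reflection through a critical point changes the energy excess by at most the factor `KK p`. -/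
theorem reflect (hp : 2 ≤ p) (hc : ∀ j, 0 ≤ c j) (h w : V → ℝ) (hL : LL p src dst c E h w = 0) :
    en p src dst c E (fun v => h v + w v) - en p src dst c E h ≤
      KK p * (en p src dst c E (fun v => h v - w v) - en p src dst c E h) := by
  have key : ∑ j ∈ E, c j * (|(h (src j) - h (dst j)) + (w (src j) - w (dst j))| ^ p
        - |h (src j) - h (dst j)| ^ p
        - p * (|h (src j) - h (dst j)| ^ (p - 2) * (h (src j) - h (dst j))) * (w (src j) - w (dst j)))
      ≤ ∑ j ∈ E, c j * (KK p * (|(h (src j) - h (dst j)) - (w (src j) - w (dst j))| ^ p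
        - |h (src j) - h (dst j)| ^ p
        + p * (|h (src j) - h (dst j)| ^ (p - 2) * (h (src j) - h (dst j))) *
          (w (src j) - w (dst j)))) :=
    Finset.sum_le_sum fun j _ => mul_le_mul_of_nonneg_left (breg_le p hp _ _) (hc j)
  have e1 : ∑ j ∈ E, c j * (|(h (src j) - h (dst j)) + (w (src j) - w (dst j))| ^ p
        - |h (src j) - h (dst j)| ^ p
        - p * (|h (src j) - h (dst j)| ^ (p - 2) * (h (src j) - h (dst j))) * (w (src j) - w (dst j)))
      = en p src dst c E (fun v => h v + w v) - en p src dst c E h - p * LL p src dst c E h w := by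
    unfold en LL
    rw [Finset.mul_sum, ← Finset.sum_sub_distrib, ← Finset.sum_sub_distrib]
    refine Finset.sum_congr rfl fun j _ => ?_
    have : h (src j) + w (src j) - (h (dst j) + w (dst j)) =
      (h (src j) - h (dst j)) + (w (src j) - w (dst j)) := by ring
    rw [this]; ring
  have e2 : ∑ j ∈ E, c j * (KK p * (|(h (src j) - h (dst j)) - (w (src j) - w (dst j))| ^ p
        - |h (src j) - h (dst j)| ^ p
        + p * (|h (src j) - h (dst j)| ^ (p - 2) * (h (src j) - h (dst j))) *
          (w (src j) - w (dst j))))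
      = KK p * (en p src dst c E (fun v => h v - w v) - en p src dst c E h
          + p * LL p src dst c E h w) := by
    unfold en LL
    rw [Finset.mul_sum, ← Finset.sum_sub_distrib, ← Finset.sum_add_distrib, Finset.mul_sum]
    refine Finset.sum_congr rfl fun j _ => ?_
    have : h (src j) - w (src j) - (h (dst j) - w (dst j)) =
      (h (src j) - h (dst j)) - (w (src j) - w (dst j)) := by ring
    rw [this]; ring
  rw [e1, e2, hL] at key
  simpa using key

end

end Vale.Agent.Lib.P249
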