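import Mathlib

namespace Vale.Agent.Lib.P249

open Finset

section

variable {X : Type} [Fintype X] [DecidableEq X]

/-- At least half of the subsets of `A` have at most half the size of `A`. -/
theorem two_mul_card_small_subsets (A : Finset X) :
    2 ^ A.card ≤ 2 * (A.powerset.filter (fun T => 2 * T.card ≤ A.card)).card := by
  have h1 : (A.powerset.filter (fun T => ¬ 2 * T.card ≤ A.card)).card ≤
      (A.powerset.filter (fun T => 2 * T.card ≤ A.card)).card := by
    refine Finset.card_le_card_of_injOn (fun T => A \ T) ?_ ?_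
    · intro T hT
      simp only [coe_filter, mem_powerset, Set.mem_ofPred_eq] at hT ⊢
      refine ⟨sdiff_subset, ?_⟩
      rw [card_sdiff_of_subset hT.1]
      have := card_le_card hT.1
      omega
    · intro T hT T' hT' h
      simp only [coe_filter, mem_powerset, Set.mem_ofPred_eq] at hT hT'
      have h2 : A \ (A \ T) = A \ (A \ T') := by
        simp only at h
        rw [h]
      rwa [Finset.sdiff_sdiff_eq_self hT.1, Finset.sdiff_sdiff_eq_self hT'.1] at h2
  have h2 := Finset.card_filter_add_card_filter_not (s := A.powerset) (fun T => 2 * T.card ≤ A.card)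
  rw [card_powerset] at h2
  omega

theorem card_near_ge (r : X → ℝ) (A : Finset X) (s : ℕ) (hs : s ≤ A.card) :
    s ≤ (A.filter (fun w => (A.filter (fun w' => r w' < r w)).card < s)).card := by
  by_contra hlt
  push Not at hlt
  set Nv := A.filter (fun w => (A.filter (fun w' => r w' < r w)).card < s) with hNv
  have hNvA : Nv ⊆ A := filter_subset _ _
  have hne : (A \ Nv).Nonempty := by
    rw [← card_pos, card_sdiff_of_subset hNvA]
    omega
  obtain ⟨w, hw, hmin⟩ := Finset.exists_min_image (A \ Nv) r hne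
  have hwA : w ∈ A := (mem_sdiff.mp hw).1
  have hsub : A.filter (fun w' => r w' < r w) ⊆ Nv := by
    intro w' hw'
    by_contra hnot
    have h1 : w' ∈ A \ Nv := mem_sdiff.mpr ⟨(mem_filter.mp hw').1, hnot⟩
    have h2 := hmin w' h1
    have h3 := (mem_filter.mp hw').2
    linarith
  have h4 : (A.filter (fun w' => r w' < r w)).card < s := lt_of_le_of_lt (card_le_card hsub) hlt
  exact (mem_sdiff.mp hw).2 (mem_filter.mpr ⟨hwA, h4⟩)

/-- One level of the hierarchy: `A` has a subset `A'` of at most half its size such that every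
point `v` has at most `s` points of `A` strictly closer than all of `A'`. -/
theorem exists_level (ρ : X → X → ℝ) (s : ℕ) (hs : 2 * Fintype.card X < 2 ^ s) (A : Finset X) :
    ∃ A' ⊆ A, 2 * A'.card ≤ A.card ∧
      ∀ v, (A.filter (fun w => ∀ a ∈ A', ρ v w < ρ v a)).card ≤ s := by
  by_cases hA : A.card ≤ s
  · exact ⟨∅, empty_subset _, by simp, fun v => (card_le_card (filter_subset _ _)).trans hA⟩
  push Not at hA
  set Nv : X → Finset X := fun v =>
    A.filter (fun w => (A.filter (fun w' => ρ v w' < ρ v w)).card < s) with hNv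
  have hNcard : ∀ v, s ≤ (Nv v).card := fun v => card_near_ge (ρ v) A s hA.le
  set small := A.powerset.filter (fun T => 2 * T.card ≤ A.card) with hsmall
  set bad : X → Finset (Finset X) := fun v => (A \ Nv v).powerset with hbad
  have hbadcard : ∀ v, (bad v).card ≤ 2 ^ (A.card - s) := by
    intro v
    simp only [hbad, card_powerset]
    apply Nat.pow_le_pow_right (by norm_num)
    have hsub : Nv v ⊆ A := filter_subset _ _
    rw [card_sdiff_of_subset hsub]
    have := hNcard v
    omega
  have hunion : ((univ : Finset X).biUnion bad).card < small.card := by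
    have h1 : ((univ : Finset X).biUnion bad).card ≤ Fintype.card X * 2 ^ (A.card - s) := by
      refine (card_biUnion_le).trans ?_
      calc ∑ v : X, (bad v).card ≤ ∑ _v : X, 2 ^ (A.card - s) :=
            Finset.sum_le_sum fun v _ => hbadcard v
        _ = Fintype.card X * 2 ^ (A.card - s) := by simp
    have h2 := two_mul_card_small_subsets A
    have h3 : 2 ^ A.card = 2 ^ s * 2 ^ (A.card - s) := by
      rw [← pow_add]; congr 1; omega
    have h4 : 0 < 2 ^ (A.card - s) := by positivity
    have h5 : 2 * Fintype.card X * 2 ^ (A.card - s) < 2 ^ s * 2 ^ (A.card - s) :=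
      Nat.mul_lt_mul_of_pos_right hs h4
    have h6 : 2 * (Fintype.card X * 2 ^ (A.card - s)) < 2 * small.card := by
      calc 2 * (Fintype.card X * 2 ^ (A.card - s)) = 2 * Fintype.card X * 2 ^ (A.card - s) := by ring
        _ < 2 ^ s * 2 ^ (A.card - s) := h5
        _ = 2 ^ A.card := h3.symm
        _ ≤ 2 * small.card := h2
    omega
  obtain ⟨T, hT, hTbad⟩ := Finset.exists_mem_notMem_of_card_lt_card hunion
  have hTA : T ⊆ A := mem_powerset.mp (mem_filter.mp hT).1
  refine ⟨T, hTA, (mem_filter.mp hT).2, fun v => ?_⟩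
  have hnb : T ∉ bad v := fun h => hTbad (mem_biUnion.mpr ⟨v, mem_univ _, h⟩)
  have : ∃ a ∈ T, a ∈ Nv v := by
    by_contra hcon
    push Not at hcon
    apply hnb
    simp only [hbad, mem_powerset]
    intro a ha
    exact mem_sdiff.mpr ⟨hTA ha, hcon a ha⟩
  obtain ⟨a, haT, haN⟩ := this
  have h1 : (A.filter (fun w' => ρ v w' < ρ v a)).card < s := (mem_filter.mp haN).2
  have h2 : A.filter (fun w => ∀ a ∈ T, ρ v w < ρ v a) ⊆ A.filter (fun w' => ρ v w' < ρ v a) := by
    intro w hw
    rw [mem_filter] at hw ⊢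
    exact ⟨hw.1, hw.2 a haT⟩
  exact (card_le_card h2).trans h1.le

/-- Recursive form of the Thorup-Zwick two-hop property. -/
theorem exists_hops_aux (ρ : X → X → ℝ) (hnn : ∀ u v, 0 ≤ ρ u v) (hsymm : ∀ u v, ρ u v = ρ v u)
    (htri : ∀ u v w, ρ u w ≤ ρ u v + ρ v w) (s : ℕ) (hs : 2 * Fintype.card X < 2 ^ s) (k : ℕ) :
    ∀ A : Finset X, A.card < 2 ^ k → ∃ H : Finset (X × X),
      H.card ≤ k * (Fintype.card X * (s + 1)) ∧
      ∀ u v w, w ∈ A → ∃ w', ((u, w') ∈ H ∨ w' = w) ∧ (v, w') ∈ H ∧
        ρ u w' ≤ ρ u w + k * ρ u v ∧ ρ v w' ≤ ρ u w + k * ρ u v := by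
  induction k with
  | zero =>
    intro A hA
    have : A = ∅ := by
      rw [← card_eq_zero]; simpa using hA
    subst this
    exact ⟨∅, by simp, fun u v w hw => absurd hw (notMem_empty w)⟩
  | succ k ih =>
    intro A hA
    obtain ⟨A', hA'A, hA'card, hclose⟩ := exists_level ρ s hs A
    obtain ⟨H', hH'card, hH'⟩ := ih A' (by rw [pow_succ] at hA; omega)
    -- nearest point of A' (if any)
    have hnear : ∀ v : X, ∃ q : X, A'.Nonempty → (q ∈ A' ∧ ∀ a ∈ A', ρ v q ≤ ρ v a) := by
      intro v
      by_cases hne : A'.Nonempty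
      · obtain ⟨q, hq, hmin⟩ := Finset.exists_min_image A' (ρ v) hne
        exact ⟨q, fun _ => ⟨hq, hmin⟩⟩
      · exact ⟨v, fun h => absurd h hne⟩
    choose q hq using hnear
    set lev : Finset (X × X) := (univ : Finset X).biUnion (fun v =>
      (insert (q v) (A.filter (fun w => ∀ a ∈ A', ρ v w < ρ v a))).image (fun w => (v, w))) with hlev
    have hlevcard : lev.card ≤ Fintype.card X * (s + 1) := by
      refine (card_biUnion_le).trans ?_
      calc ∑ v : X, ((insert (q v) (A.filter (fun w => ∀ a ∈ A', ρ v w < ρ v a))).image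
              (fun w => (v, w))).card ≤ ∑ _v : X, (s + 1) := by
            refine Finset.sum_le_sum fun v _ => ?_
            refine card_image_le.trans ((card_insert_le _ _).trans ?_)
            exact Nat.succ_le_succ (hclose v)
        _ = Fintype.card X * (s + 1) := by simp
    refine ⟨H' ∪ lev, ?_, ?_⟩
    · refine (card_union_le _ _).trans ?_
      calc H'.card + lev.card ≤ k * (Fintype.card X * (s + 1)) + Fintype.card X * (s + 1) :=
            add_le_add hH'card hlevcard
        _ = (k + 1) * (Fintype.card X * (s + 1)) := by ring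
    · intro u v w hw
      have hmemlev : ∀ v w, (w = q v ∨ (w ∈ A ∧ ∀ a ∈ A', ρ v w < ρ v a)) → (v, w) ∈ lev := by
        intro v w h
        simp only [hlev, mem_biUnion, mem_univ, true_and, mem_image, mem_insert, mem_filter]
        exact ⟨v, w, h, rfl⟩
      have hΔ := hnn u v
      have hvw : ρ v w ≤ ρ u w + ρ u v := by
        have := htri v u w
        rw [hsymm v u] at this
        linarith
      by_cases hc : ∀ a ∈ A', ρ v w < ρ v a
      · refine ⟨w, Or.inr rfl, mem_union_right _ (hmemlev v w (Or.inr ⟨hw, hc⟩)), ?_, ?_⟩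
        · have : 0 ≤ ((k + 1 : ℕ) : ℝ) * ρ u v := by positivity
          linarith
        · have : ρ u v ≤ ((k + 1 : ℕ) : ℝ) * ρ u v := by
            push_cast
            nlinarith [(Nat.cast_nonneg k : (0 : ℝ) ≤ k)]
          linarith
      · push Not at hc
        obtain ⟨a, ha, hav⟩ := hc
        obtain ⟨hqA, hqmin⟩ := hq v ⟨a, ha⟩
        have hτ : ρ v (q v) ≤ ρ u w + ρ u v := ((hqmin a ha).trans hav).trans hvw
        obtain ⟨w', h1, h2, h3, h4⟩ := hH' v u (q v) hqA
        rw [hsymm v u] at h3 h4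
        refine ⟨w', Or.inl (mem_union_left _ h2), ?_, ?_, ?_⟩
        · rcases h1 with h1 | h1
          · exact mem_union_left _ h1
          · rw [h1]; exact mem_union_right _ (hmemlev v (q v) (Or.inl rfl))
        · push_cast; linarith
        · push_cast; linarith

/-- Two-hop spanner: with `n = |X| < 2 ^ k` and `2 n < 2 ^ s` there is a set `H` of at most
`k n (s + 1)` ordered pairs such that any two points `u, v` are either joined by `(v, u) ∈ H`
or have a common `H`-neighbour `w` with `ρ u w, ρ v w ≤ k ρ u v`. -/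
theorem exists_two_hop (ρ : X → X → ℝ) (hnn : ∀ u v, 0 ≤ ρ u v) (hsymm : ∀ u v, ρ u v = ρ v u)
    (htri : ∀ u v w, ρ u w ≤ ρ u v + ρ v w) (hself : ∀ u, ρ u u = 0) (s k : ℕ)
    (hs : 2 * Fintype.card X < 2 ^ s) (hk : Fintype.card X < 2 ^ k) :
    ∃ H : Finset (X × X), H.card ≤ k * (Fintype.card X * (s + 1)) ∧
      ∀ u v, ∃ w, ((u, w) ∈ H ∨ w = u) ∧ (v, w) ∈ H ∧ ρ u w ≤ k * ρ u v ∧ ρ v w ≤ k * ρ u v := by
  obtain ⟨H, hcard, hH⟩ := exists_hops_aux ρ hnn hsymm htri s hs k univ (by simpa using hk)
  refine ⟨H, hcard, fun u v => ?_⟩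
  obtain ⟨w, h1, h2, h3, h4⟩ := hH u v u (mem_univ u)
  rw [hself u, zero_add] at h3 h4
  exact ⟨w, h1, h2, h3, h4⟩

end

end Vale.Agent.Lib.P249
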