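import Vale.Agent.Lib.P249.Chernoff
import Vale.Agent.Lib.P249.Spanner

namespace Vale.Agent.Lib.P249

open Finset

theorem abs_add_rpow_le (p : ℝ) (hp : 1 ≤ p) (s t : ℝ) :
    |s + t| ^ p ≤ 2 ^ (p - 1) * (|s| ^ p + |t| ^ p) := by
  have h1 : |s + t| ^ p ≤ (|s| + |t|) ^ p :=
    Real.rpow_le_rpow (abs_nonneg _) (abs_add_le s t) (by linarith)
  have h2 := NNReal.rpow_add_le_mul_rpow_add_rpow ⟨|s|, abs_nonneg s⟩ ⟨|t|, abs_nonneg t⟩ hp
  have h3 : (|s| + |t|) ^ p ≤ 2 ^ (p - 1) * (|s| ^ p + |t| ^ p) := by exact_mod_cast h2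
  exact h1.trans h3

section

variable {X J : Type} [Fintype X] [DecidableEq X] [Fintype J] [DecidableEq J]

/-- `j`-th coordinate contribution to the `p`-th power of the distance of `x a` and `x b`. -/
noncomputable def vv (p : ℝ) (x : X → J → ℝ) (a b : X) (j : J) : ℝ := |x a j - x b j| ^ p

/-- `p`-th power of the `ℓ_p` distance of `x a` and `x b`. -/
noncomputable def TT (p : ℝ) (x : X → J → ℝ) (a b : X) : ℝ := ∑ j, vv p x a b j

variable (p : ℝ) (x : X → J → ℝ)

omit [Fintype X] [DecidableEq X] [Fintype J] [DecidableEq J] in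
theorem vv_nonneg (a b : X) (j : J) : 0 ≤ vv p x a b j := Real.rpow_nonneg (abs_nonneg _) _

omit [Fintype X] [DecidableEq X] [DecidableEq J] in
theorem TT_nonneg (a b : X) : 0 ≤ TT p x a b := Finset.sum_nonneg fun j _ => vv_nonneg p x a b j

omit [Fintype X] [DecidableEq X] [Fintype J] [DecidableEq J] in
theorem vv_symm (a b : X) (j : J) : vv p x a b j = vv p x b a j := by
  unfold vv; rw [abs_sub_comm]

omit [Fintype X] [DecidableEq X] [DecidableEq J] in
theorem TT_symm (a b : X) : TT p x a b = TT p x b a :=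
  Finset.sum_congr rfl fun j _ => vv_symm p x a b j

omit [Fintype X] [DecidableEq X] [DecidableEq J] in
theorem TT_self (hp : 1 ≤ p) (a : X) : TT p x a a = 0 := by
  unfold TT vv
  simp [Real.zero_rpow (by linarith : p ≠ 0)]

omit [Fintype X] [DecidableEq X] [DecidableEq J] in
theorem vv_eq_zero_of_TT (a b : X) (h : TT p x a b = 0) (j : J) : vv p x a b j = 0 := by
  unfold TT at h
  exact (Finset.sum_eq_zero_iff_of_nonneg fun j _ => vv_nonneg p x a b j).mp h j (mem_univ j)

omit [Fintype X] [DecidableEq X] [DecidableEq J] in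
theorem vv_le_div_mul (a b : X) (j : J) : vv p x a b j ≤ vv p x a b j / TT p x a b * TT p x a b := by
  by_cases h : TT p x a b = 0
  · rw [vv_eq_zero_of_TT p x a b h j]; simp
  · rw [div_mul_cancel₀ _ h]

omit [Fintype X] [DecidableEq X] [DecidableEq J] in
theorem rho_tri (hp : 1 ≤ p) (a b c : X) :
    (TT p x a c) ^ (1 / p) ≤ (TT p x a b) ^ (1 / p) + (TT p x b c) ^ (1 / p) := by
  have h := Real.Lp_add_le (univ : Finset J) (fun j => x a j - x b j) (fun j => x b j - x c j) hp
  have h2 : ∀ j, x a j - x b j + (x b j - x c j) = x a j - x c j := fun j => by ring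
  simp only [h2] at h
  exact h

omit [Fintype X] [DecidableEq X] [DecidableEq J] in
theorem TT_le_of_rho_le (hp : 1 ≤ p) (a b c d : X) (k : ℝ) (hk : 0 ≤ k)
    (h : (TT p x a b) ^ (1 / p) ≤ k * (TT p x c d) ^ (1 / p)) :
    TT p x a b ≤ k ^ p * TT p x c d := by
  have hp0 : p ≠ 0 := by linarith
  have h1 := Real.rpow_le_rpow (Real.rpow_nonneg (TT_nonneg p x a b) _) h (by linarith : 0 ≤ p)
  rw [Real.mul_rpow hk (Real.rpow_nonneg (TT_nonneg p x c d) _), one_div,
    Real.rpow_inv_rpow (TT_nonneg p x a b) hp0, Real.rpow_inv_rpow (TT_nonneg p x c d) hp0] at h1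
  exact h1

omit [Fintype X] [DecidableEq X] [Fintype J] [DecidableEq J] in
theorem vv_tri (hp : 1 ≤ p) (a b w : X) (j : J) :
    vv p x a b j ≤ 2 ^ (p - 1) * (vv p x a w j + vv p x b w j) := by
  have h := abs_add_rpow_le p hp (x a j - x w j) (x w j - x b j)
  have h2 : x a j - x w j + (x w j - x b j) = x a j - x b j := by ring
  rw [h2] at h
  unfold vv
  rw [abs_sub_comm (x b j) (x w j)]
  exact h

/-- Total sensitivity bound: there are coordinate weights `σ` dominating all relative coordinate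
contributions of all pairs, of total mass at most `2^(p-1) k^p * (k n (s+1))`. -/
theorem exists_sensitivity (hp : 1 ≤ p) (s k : ℕ) (hs : 2 * Fintype.card X < 2 ^ s)
    (hk : Fintype.card X < 2 ^ k) (hk1 : 1 ≤ k) :
    ∃ σ : J → ℝ, (∀ j, 0 ≤ σ j) ∧ (∀ a b j, vv p x a b j ≤ σ j * TT p x a b) ∧
      ∑ j, σ j ≤ 2 ^ (p - 1) * (k : ℝ) ^ p * ((k * (Fintype.card X * (s + 1)) : ℕ) : ℝ) := by
  obtain ⟨H, hHcard, hH⟩ := exists_two_hop (fun a b => (TT p x a b) ^ (1 / p))
    (fun a b => Real.rpow_nonneg (TT_nonneg p x a b) _)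
    (fun a b => by simp only [TT_symm p x a b])
    (fun a b c => rho_tri p x hp a b c)
    (fun a => by
      simp only [TT_self p x hp a]
      exact Real.zero_rpow (by positivity))
    s k hs hk
  set K : ℝ := 2 ^ (p - 1) * (k : ℝ) ^ p with hK
  have hk1' : (1 : ℝ) ≤ k := by exact_mod_cast hk1
  have h2p : (1 : ℝ) ≤ 2 ^ (p - 1) := Real.one_le_rpow (by norm_num) (by linarith)
  have hkp : (1 : ℝ) ≤ (k : ℝ) ^ p := Real.one_le_rpow hk1' (by linarith)
  have hK1 : 1 ≤ K := by
    rw [hK]; nlinarith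
  set g : X × X → J → ℝ := fun e j => vv p x e.1 e.2 j / TT p x e.1 e.2 with hg
  have hg0 : ∀ e j, 0 ≤ g e j := fun e j => div_nonneg (vv_nonneg p x _ _ j) (TT_nonneg p x _ _)
  refine ⟨fun j => K * ∑ e ∈ H, g e j, ?_, ?_, ?_⟩
  · intro j
    exact mul_nonneg (by linarith) (Finset.sum_nonneg fun e _ => hg0 e j)
  · intro a b j
    by_cases hT : TT p x a b = 0
    · rw [vv_eq_zero_of_TT p x a b hT j, hT]; simp
    have hTpos : 0 < TT p x a b := lt_of_le_of_ne (TT_nonneg p x a b) (Ne.symm hT)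
    have hab : a ≠ b := by
      rintro rfl
      exact hT (TT_self p x hp a)
    obtain ⟨w, h1, h2, h3, h4⟩ := hH a b
    have hsum0 : 0 ≤ ∑ e ∈ H, g e j := Finset.sum_nonneg fun e _ => hg0 e j
    rcases h1 with h1 | h1
    · have hTa := TT_le_of_rho_le p x hp a w a b k (by linarith) h3
      have hTb := TT_le_of_rho_le p x hp b w a b k (by linarith) h4
      have hne : (a, w) ≠ (b, w) := fun h => hab (Prod.ext_iff.mp h).1
      have hpair : g (a, w) j + g (b, w) j ≤ ∑ e ∈ H, g e j := by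
        have hsub : ({(a, w), (b, w)} : Finset (X × X)) ⊆ H := by
          intro e he
          simp only [mem_insert, mem_singleton] at he
          rcases he with rfl | rfl
          · exact h1
          · exact h2
        calc g (a, w) j + g (b, w) j = ∑ e ∈ ({(a, w), (b, w)} : Finset (X × X)), g e j := by
              rw [Finset.sum_pair hne]
          _ ≤ ∑ e ∈ H, g e j :=
              Finset.sum_le_sum_of_subset_of_nonneg hsub fun e _ _ => hg0 e j
      have ha1 : vv p x a w j ≤ g (a, w) j * ((k : ℝ) ^ p * TT p x a b) :=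
        (vv_le_div_mul p x a w j).trans (mul_le_mul_of_nonneg_left hTa (hg0 (a, w) j))
      have hb1 : vv p x b w j ≤ g (b, w) j * ((k : ℝ) ^ p * TT p x a b) :=
        (vv_le_div_mul p x b w j).trans (mul_le_mul_of_nonneg_left hTb (hg0 (b, w) j))
      calc vv p x a b j ≤ 2 ^ (p - 1) * (vv p x a w j + vv p x b w j) := vv_tri p x hp a b w j
        _ ≤ 2 ^ (p - 1) * (g (a, w) j * ((k : ℝ) ^ p * TT p x a b)
              + g (b, w) j * ((k : ℝ) ^ p * TT p x a b)) := by
            apply mul_le_mul_of_nonneg_left (add_le_add ha1 hb1) (by linarith)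
        _ = K * (g (a, w) j + g (b, w) j) * TT p x a b := by rw [hK]; ring
        _ ≤ K * (∑ e ∈ H, g e j) * TT p x a b := by
            apply mul_le_mul_of_nonneg_right _ hTpos.le
            exact mul_le_mul_of_nonneg_left hpair (by linarith)
    · subst h1
      have hsingle : g (b, w) j ≤ ∑ e ∈ H, g e j :=
        Finset.single_le_sum (f := fun e => g e j) (fun e _ => hg0 e j) h2
      calc vv p x w b j = vv p x b w j := vv_symm p x w b j
        _ ≤ g (b, w) j * TT p x b w := vv_le_div_mul p x b w j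
        _ = g (b, w) j * TT p x w b := by rw [TT_symm p x b w]
        _ ≤ (K * ∑ e ∈ H, g e j) * TT p x w b := by
            apply mul_le_mul_of_nonneg_right _ hTpos.le
            calc g (b, w) j ≤ ∑ e ∈ H, g e j := hsingle
              _ ≤ K * ∑ e ∈ H, g e j := by nlinarith
  · have h1 : ∑ j, K * ∑ e ∈ H, g e j = K * ∑ e ∈ H, ∑ j, g e j := by
      rw [← Finset.mul_sum, Finset.sum_comm]
    rw [h1]
    apply mul_le_mul_of_nonneg_left _ (by linarith)
    calc ∑ e ∈ H, ∑ j, g e j ≤ ∑ _e ∈ H, (1 : ℝ) := by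
          refine Finset.sum_le_sum fun e _ => ?_
          simp only [hg]
          rw [← Finset.sum_div]
          exact div_self_le_one _
      _ = (H.card : ℝ) := by simp
      _ ≤ ((k * (Fintype.card X * (s + 1)) : ℕ) : ℝ) := by exact_mod_cast hHcard

end

end Vale.Agent.Lib.P249
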