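import Vale.Agent.Lib.P249.Energy
import Vale.Agent.Lib.P249.Sensitivity

namespace Vale.Agent.Lib.P249

open Finset

section

variable {V J : Type} [DecidableEq V]
variable {p : ℝ} {src dst : J → V} {c : J → ℝ} {E : Finset J}

/-- Indicator function of a vertex. -/
def ind (x : V) : V → ℝ := fun v => if v = x then 1 else 0

/-- `h` is a capacitary potential of the pair `(x, y)`. -/
structure IsPot (p : ℝ) (src dst : J → V) (c : J → ℝ) (E : Finset J) (x y : V) (h : V → ℝ) :
    Prop where
  hx : h x = 1
  hy : h y = 0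
  h01 : ∀ v, 0 ≤ h v ∧ h v ≤ 1
  hmin : ∀ f : V → ℝ, f x = 1 → f y = 0 → en p src dst c E h ≤ en p src dst c E f

/-- The constant in the Foster-type inequality. -/
noncomputable def CK (p : ℝ) : ℝ := 4 * p * 3 ^ p * 3 ^ p

theorem CK_mul (p : ℝ) : CK p * p = KK p * 3 ^ p := by
  unfold CK KK; ring

theorem CK_nonneg (p : ℝ) (hp : 2 ≤ p) : 0 ≤ CK p := by
  unfold CK
  have := three_rpow_ge p hp
  positivity

variable {x y : V} {h : V → ℝ}

theorem IsPot.flux (hp : 2 ≤ p) (hxy : x ≠ y) (H : IsPot p src dst c E x y h) :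
    LL p src dst c E h (ind x) = en p src dst c E h := by
  have h0 : LL p src dst c E h (fun v => h v - ind x v) = 0 := by
    apply first_order hp
    intro s
    apply H.hmin
    · simp [ind, H.hx]
    · simp [ind, H.hy, hxy.symm]
  rw [LL_sub, LL_self hp] at h0
  linarith

theorem IsPot.eta_pos (hp : 2 ≤ p) (hxy : x ≠ y) (H : IsPot p src dst c E x y h)
    (hI : 0 < en p src dst c E h) (u : V) (hux : u ≠ x)
    (hu : ∀ f : V → ℝ, en p src dst c E h * |f u - f y| ^ p ≤ en p src dst c E f) :
    0 < 1 - h u := by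
  by_contra hcon
  have h1 : h u = 1 := le_antisymm (H.h01 u).2 (by linarith)
  have h0 : LL p src dst c E h (ind x) = 0 := by
    apply first_order hp
    intro s
    have := hu (fun v => h v + s * ind x v)
    simpa [ind, hux, hxy.symm, h1, H.hy] using this
  rw [H.flux hp hxy] at h0
  linarith

omit [DecidableEq V] in
theorem IsPot.kl_aux (hp : 2 ≤ p) (hc : ∀ j, 0 ≤ c j) (H : IsPot p src dst c E x y h)
    (u : V) (hη0 : 0 < 1 - h u) (hη1 : 1 - h u ≤ 1 / 3)
    (hu : ∀ f : V → ℝ, en p src dst c E h * |f u - f y| ^ p ≤ en p src dst c E f) (g : V → ℝ)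
    (hD : 0 < g x - g u) :
    en p src dst c E h * |g x - g u| ^ p ≤ CK p * (1 - h u) ^ (p - 1) * en p src dst c E g := by
  set I := en p src dst c E h with hI
  set η := 1 - h u with hη
  set D := g x - g u with hDdef
  set lam := 3 * η / D with hlam
  have hlam0 : 0 < lam := by positivity
  set φ : V → ℝ := fun v => lam * g v + (1 - lam * g x) with hφ
  set ft : V → ℝ := fun v => max 0 (min (h v) (φ v)) with hft
  have henφ : en p src dst c E φ = lam ^ p * en p src dst c E g := by
    rw [hφ, en_affine, abs_of_pos hlam0]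
  have henft : en p src dst c E ft ≤ I + lam ^ p * en p src dst c E g := by
    rw [← henφ]
    apply en_le_add (by linarith) hc
    intro a b
    calc |ft a - ft b| ≤ max |(0 : ℝ) - 0| |min (h a) (φ a) - min (h b) (φ b)| :=
          abs_max_sub_max_le_max _ _ _ _
      _ = |min (h a) (φ a) - min (h b) (φ b)| := by simp
      _ ≤ max |h a - h b| |φ a - φ b| := abs_min_sub_min_le_max _ _ _ _
  have hφx : φ x = 1 := by simp only [hφ]; ring
  have hφu : φ u = 1 - 3 * η := by
    simp only [hφ]
    have : lam * g u + (1 - lam * g x) = 1 - lam * D := by rw [hDdef]; ring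
    rw [this, hlam]
    field_simp
  have hftx : ft x = 1 := by simp only [hft, H.hx, hφx]; simp
  have hfty : ft y = 0 := by
    simp only [hft, H.hy]
    exact max_eq_left (min_le_left _ _)
  have hhu : h u = 1 - η := by rw [hη]; ring
  have hftu : ft u = 1 - 3 * η := by
    simp only [hft, hφu, hhu]
    rw [min_eq_right (by linarith), max_eq_right (by linarith)]
  have hL : LL p src dst c E h (fun v => h v - ft v) = 0 := by
    apply first_order hp
    intro s
    apply H.hmin
    · simp [H.hx, hftx]
    · simp [H.hy, hfty]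
  have hr := reflect hp hc h (fun v => h v - ft v) hL
  have e1 : (fun v => h v - (h v - ft v)) = ft := by funext v; ring
  simp only [e1] at hr
  have h2 := hu (fun v => h v + (h v - ft v))
  simp only [hftu, hfty, hhu, H.hy] at h2
  have e2 : (1 - η + (1 - η - (1 - 3 * η)) - (0 + (0 - 0))) = 1 + η := by ring
  rw [e2, abs_of_pos (by linarith)] at h2
  have hb : 1 + p * η ≤ (1 + η) ^ p :=
    one_add_mul_self_le_rpow_one_add (by linarith) (by linarith)
  have hI0 : 0 ≤ I := en_nonneg hc h
  have hKK : 0 ≤ KK p := by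
    have := KK_ge p hp
    have := three_rpow_ge p hp
    linarith
  have h3 : I * (p * η) ≤ KK p * (lam ^ p * en p src dst c E g) := by
    have h4 : I * (1 + p * η) ≤ I * (1 + η) ^ p := mul_le_mul_of_nonneg_left hb hI0
    have h5 : KK p * (en p src dst c E ft - I) ≤ KK p * (lam ^ p * en p src dst c E g) :=
      mul_le_mul_of_nonneg_left (by linarith) hKK
    linarith
  have hDp : 0 < D ^ p := Real.rpow_pos_of_pos hD _
  have hlamp : lam ^ p * D ^ p = 3 ^ p * ((η ^ (p - 1)) * η) := by
    rw [← Real.mul_rpow hlam0.le hD.le, hlam, div_mul_cancel₀ _ hD.ne',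
      Real.mul_rpow (by norm_num) hη0.le]
    congr 1
    rw [← Real.rpow_add_one hη0.ne']
    congr 1; ring
  rw [abs_of_pos hD]
  have hpη : 0 < p * η := by positivity
  apply le_of_mul_le_mul_right _ hpη
  calc I * D ^ p * (p * η) = I * (p * η) * D ^ p := by ring
    _ ≤ KK p * (lam ^ p * en p src dst c E g) * D ^ p := mul_le_mul_of_nonneg_right h3 hDp.le
    _ = KK p * (lam ^ p * D ^ p) * en p src dst c E g := by ring
    _ = CK p * η ^ (p - 1) * en p src dst c E g * (p * η) := by
        rw [hlamp]
        have := CK_mul p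
        calc KK p * (3 ^ p * (η ^ (p - 1) * η)) * en p src dst c E g
            = (KK p * 3 ^ p) * (η ^ (p - 1) * η) * en p src dst c E g := by ring
          _ = (CK p * p) * (η ^ (p - 1) * η) * en p src dst c E g := by rw [this]
          _ = _ := by ring

theorem IsPot.kl (hp : 2 ≤ p) (hc : ∀ j, 0 ≤ c j) (hxy : x ≠ y) (H : IsPot p src dst c E x y h)
    (hI : 0 < en p src dst c E h) (u : V) (hux : u ≠ x)
    (hu : ∀ f : V → ℝ, en p src dst c E h * |f u - f y| ^ p ≤ en p src dst c E f) (g : V → ℝ) :
    en p src dst c E h * |g x - g u| ^ p ≤ CK p * (1 - h u) ^ (p - 1) * en p src dst c E g := by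
  have hη0 := H.eta_pos hp hxy hI u hux hu
  have hg0 : 0 ≤ en p src dst c E g := en_nonneg hc g
  have hCK := CK_nonneg p hp
  have h3 := three_rpow_ge p hp
  rcases le_or_gt (1 - h u) (1 / 3) with hη1 | hη1
  · rcases lt_trichotomy (g x - g u) 0 with hD | hD | hD
    · have h1 := H.kl_aux hp hc u hη0 hη1 hu (fun v => -1 * g v + 0) (by linarith)
      rw [en_affine] at h1
      have e : -1 * g x + 0 - (-1 * g u + 0) = -(g x - g u) := by ring
      rw [e, abs_neg] at h1
      simpa using h1
    · rw [hD, abs_zero, Real.zero_rpow (by linarith), mul_zero]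
      have := Real.rpow_nonneg hη0.le (p - 1)
      positivity
    · exact H.kl_aux hp hc u hη0 hη1 hu g hD
  · have hx' := scale_bound (by linarith) hc x y _ H.hmin g
    have hu' := hu g
    have ht := abs_add_rpow_le p (by linarith) (g x - g y) (g y - g u)
    have e : g x - g y + (g y - g u) = g x - g u := by ring
    rw [e, abs_sub_comm (g y) (g u)] at ht
    have h2p : (0 : ℝ) < 2 ^ (p - 1) := Real.rpow_pos_of_pos (by norm_num) _
    have h1 : en p src dst c E h * |g x - g u| ^ p ≤ 2 ^ (p - 1) * (2 * en p src dst c E g) := by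
      calc en p src dst c E h * |g x - g u| ^ p
          ≤ en p src dst c E h * (2 ^ (p - 1) * (|g x - g y| ^ p + |g u - g y| ^ p)) :=
            mul_le_mul_of_nonneg_left ht hI.le
        _ = 2 ^ (p - 1) * (en p src dst c E h * |g x - g y| ^ p
              + en p src dst c E h * |g u - g y| ^ p) := by ring
        _ ≤ 2 ^ (p - 1) * (2 * en p src dst c E g) :=
            mul_le_mul_of_nonneg_left (by linarith) h2p.le
    have h2 : (2 : ℝ) ^ (p - 1) * 2 ≤ CK p * (1 - h u) ^ (p - 1) := by
      have ha : ((1 : ℝ) / 3) ^ (p - 1) ≤ (1 - h u) ^ (p - 1) :=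
        Real.rpow_le_rpow (by norm_num) hη1.le (by linarith)
      have hb : ((1 : ℝ) / 3) ^ (p - 1) = 3 / 3 ^ p := by
        rw [Real.rpow_sub_one (by norm_num), one_div, Real.inv_rpow (by norm_num)]
        field_simp
      have hc2 : (2 : ℝ) ^ (p - 1) * 2 = 2 ^ p := by
        rw [← Real.rpow_add_one (by norm_num)]; congr 1; ring
      have hd : (2 : ℝ) ^ p ≤ 3 ^ p := Real.rpow_le_rpow (by norm_num) (by norm_num) (by linarith)
      calc (2 : ℝ) ^ (p - 1) * 2 = 2 ^ p := hc2
        _ ≤ 3 ^ p := hd
        _ ≤ 12 * p * 3 ^ p := by nlinarith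
        _ = CK p * (3 / 3 ^ p) := by unfold CK; field_simp; ring
        _ ≤ CK p * (1 - h u) ^ (p - 1) := by
            rw [← hb]; exact mul_le_mul_of_nonneg_left ha hCK
    calc en p src dst c E h * |g x - g u| ^ p ≤ 2 ^ (p - 1) * (2 * en p src dst c E g) := h1
      _ = (2 ^ (p - 1) * 2) * en p src dst c E g := by ring
      _ ≤ CK p * (1 - h u) ^ (p - 1) * en p src dst c E g := mul_le_mul_of_nonneg_right h2 hg0

omit [DecidableEq V] in
theorem c_eq_zero_of_en_eq_zero (hc : ∀ j, 0 ≤ c j) (f : V → ℝ)
    (hf : en p src dst c E f = 0) (j : J) (hj : j ∈ E) (hne : f (src j) ≠ f (dst j)) : c j = 0 := by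
  have h1 := term_le_en (p := p) (src := src) (dst := dst) hc f j hj
  rw [hf] at h1
  have h2 : 0 < |f (src j) - f (dst j)| ^ p :=
    Real.rpow_pos_of_pos (abs_pos.mpr (sub_ne_zero.mpr hne)) _
  have := hc j
  nlinarith

theorem IsPot.edge_bound (hp : 2 ≤ p) (hc : ∀ j, 0 ≤ c j) (hxy : x ≠ y)
    (H : IsPot p src dst c E x y h) (hI : 0 < en p src dst c E h) (u : V) (hux : u ≠ x)
    (cj : ℝ) (hcj : 0 ≤ cj)
    (hu : 0 < cj → ∀ f : V → ℝ, en p src dst c E h * |f u - f y| ^ p ≤ en p src dst c E f)
    (G : V → ℝ) :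
    cj * |G x - G u| ^ p / en p src dst c E G ≤
      CK p / en p src dst c E h * (cj * (1 - h u) ^ (p - 1)) := by
  have hCK := CK_nonneg p hp
  have hη : 0 ≤ (1 - h u) ^ (p - 1) := Real.rpow_nonneg (by linarith [(H.h01 u).2]) _
  rcases hcj.eq_or_lt with h0 | h0
  · rw [← h0]; simp
  · have hk := H.kl hp hc hxy hI u hux (hu h0) G
    rcases (en_nonneg (p := p) (src := src) (dst := dst) (E := E) hc G).eq_or_lt with hG | hG
    · rw [← hG, div_zero]; positivity
    · rw [div_le_iff₀ hG]
      calc cj * |G x - G u| ^ p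
          = cj / en p src dst c E h * (en p src dst c E h * |G x - G u| ^ p) := by field_simp
        _ ≤ cj / en p src dst c E h * (CK p * (1 - h u) ^ (p - 1) * en p src dst c E G) :=
            mul_le_mul_of_nonneg_left hk (by positivity)
        _ = _ := by ring

theorem rpow_sub_two_mul (hp : 2 ≤ p) (η : ℝ) (hη : 0 ≤ η) : η ^ (p - 2) * η = η ^ (p - 1) := by
  rcases hη.eq_or_lt with h0 | h0
  · rw [← h0, mul_zero, Real.zero_rpow (by linarith)]
  · rw [← Real.rpow_add_one h0.ne']; congr 1; ring

/-- The bound for the edges at a vertex `x` whose capacity towards `y` is minimal among its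
neighbours. -/
theorem IsPot.vertex_bound (hp : 2 ≤ p) (hc : ∀ j, 0 ≤ c j) (hxy : x ≠ y)
    (H : IsPot p src dst c E x y h) (hI : 0 < en p src dst c E h)
    (hu : ∀ j ∈ E, 0 < c j → ∀ u, u ≠ x → ((src j = x ∧ dst j = u) ∨ (src j = u ∧ dst j = x)) →
      ∀ f : V → ℝ, en p src dst c E h * |f u - f y| ^ p ≤ en p src dst c E f)
    (g : J → V → ℝ) :
    ∑ j ∈ E with (src j = x ∨ dst j = x),
      c j * |g j (src j) - g j (dst j)| ^ p / en p src dst c E (g j) ≤ CK p := by
  have hp0 : p ≠ 0 := by linarith
  set T : J → ℝ := fun j => c j * ((|h (src j) - h (dst j)| ^ (p - 2) * (h (src j) - h (dst j))) *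
    (ind x (src j) - ind x (dst j))) with hT
  have hsum : ∑ j ∈ E, T j = en p src dst c E h := H.flux hp hxy
  have hfil : ∑ j ∈ E with (src j = x ∨ dst j = x), T j = ∑ j ∈ E, T j := by
    apply Finset.sum_filter_of_ne
    intro j _ hne
    by_contra hcon
    push Not at hcon
    apply hne
    simp [hT, ind, hcon.1, hcon.2]
  have hterm : ∀ j ∈ E.filter (fun j => src j = x ∨ dst j = x),
      c j * |g j (src j) - g j (dst j)| ^ p / en p src dst c E (g j) ≤
        CK p / en p src dst c E h * T j := by
    intro j hj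
    rw [Finset.mem_filter] at hj
    obtain ⟨hjE, hinc⟩ := hj
    by_cases hs : src j = x
    · by_cases hd : dst j = x
      · simp [hT, hs, hd, Real.zero_rpow hp0]
      · have hb := H.edge_bound hp hc hxy hI (dst j) hd (c j) (hc j)
          (fun h0 => hu j hjE h0 (dst j) hd (Or.inl ⟨hs, rfl⟩)) (g j)
        have hTj : T j = c j * (1 - h (dst j)) ^ (p - 1) := by
          have hη : 0 ≤ 1 - h (dst j) := by linarith [(H.h01 (dst j)).2]
          simp only [hT, hs, H.hx, ind, if_true, if_neg hd]
          rw [abs_of_nonneg hη, rpow_sub_two_mul hp _ hη]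
          ring
        rw [hTj, hs]
        exact hb
    · have hd : dst j = x := hinc.resolve_left hs
      have hb := H.edge_bound hp hc hxy hI (src j) hs (c j) (hc j)
        (fun h0 => hu j hjE h0 (src j) hs (Or.inr ⟨rfl, hd⟩)) (g j)
      have hTj : T j = c j * (1 - h (src j)) ^ (p - 1) := by
        have hη : 0 ≤ 1 - h (src j) := by linarith [(H.h01 (src j)).2]
        simp only [hT, hd, H.hx, ind, if_true, if_neg hs]
        rw [abs_sub_comm, abs_of_nonneg hη, ← rpow_sub_two_mul hp _ hη]
        ring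
      rw [hTj, hd, abs_sub_comm]
      exact hb
  calc _ ≤ ∑ j ∈ E with (src j = x ∨ dst j = x), CK p / en p src dst c E h * T j :=
        Finset.sum_le_sum hterm
    _ = CK p / en p src dst c E h * ∑ j ∈ E, T j := by rw [← Finset.mul_sum, hfil]
    _ = CK p := by rw [hsum]; field_simp

theorem exists_good_vertex [Fintype V] [DecidableEq J] (hp : 2 ≤ p) (hc : ∀ j, 0 ≤ c j)
    (S : Finset V) (hS : S.Nonempty) (hE : ∀ j ∈ E, src j ∈ S ∧ dst j ∈ S) :
    ∃ x ∈ S, ∀ g : J → V → ℝ, ∑ j ∈ E with (src j = x ∨ dst j = x),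
      c j * |g j (src j) - g j (dst j)| ^ p / en p src dst c E (g j) ≤ CK p := by
  have hp0 : p ≠ 0 := by linarith
  obtain ⟨y, hy⟩ := hS
  have hex : ∀ z, ∃ h : V → ℝ, z ≠ y → IsPot p src dst c E z y h := by
    intro z
    by_cases hz : z = y
    · exact ⟨0, fun h => absurd hz h⟩
    · obtain ⟨h, h1, h2, h3, h4⟩ := exists_min (p := p) (src := src) (dst := dst) (c := c) (E := E)
        (by linarith) hc z y hz
      exact ⟨h, fun _ => ⟨h1, h2, h3, h4⟩⟩
  choose hh hpot using hex
  set cap : V → ℝ := fun z => en p src dst c E (hh z) with hcap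
  have hcap0 : ∀ z, 0 ≤ cap z := fun z => en_nonneg hc _
  set P := S.filter (fun z => z ≠ y ∧ 0 < cap z) with hP
  by_cases hPne : P.Nonempty
  · obtain ⟨x, hxP, hxmin⟩ := P.exists_min_image cap hPne
    rw [hP, Finset.mem_filter] at hxP
    obtain ⟨hxS, hxy, hxcap⟩ := hxP
    refine ⟨x, hxS, fun g => (hpot x hxy).vertex_bound hp hc hxy hxcap ?_ g⟩
    intro j hjE hcj u hux hends f
    by_cases huy : u = y
    · rw [huy, sub_self, abs_zero, Real.zero_rpow hp0, mul_zero]
      exact en_nonneg hc f
    · have huS : u ∈ S := by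
        rcases hends with ⟨_, h2⟩ | ⟨h1, _⟩
        · rw [← h2]; exact (hE j hjE).2
        · rw [← h1]; exact (hE j hjE).1
      have hucap : 0 < cap u := by
        rcases (hcap0 u).eq_or_lt with h0 | h0
        · exfalso
          have heq : hh u (src j) = hh u (dst j) := by
            by_contra hne
            have := c_eq_zero_of_en_eq_zero hc (hh u) h0.symm j hjE hne
            linarith
          have hx1 : hh u x = 1 := by
            rcases hends with ⟨h1, h2⟩ | ⟨h1, h2⟩
            · rw [h1, h2] at heq; rw [heq]; exact (hpot u huy).hx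
            · rw [h1, h2] at heq; rw [← heq]; exact (hpot u huy).hx
          have := (hpot x hxy).hmin (hh u) hx1 (hpot u huy).hy
          have h0' : en p src dst c E (hh u) = 0 := h0.symm
          have hx' : 0 < en p src dst c E (hh x) := hxcap
          linarith
        · exact h0
      have huP : u ∈ P := by
        rw [hP, Finset.mem_filter]; exact ⟨huS, huy, hucap⟩
      have h1 := hxmin u huP
      have h2 := scale_bound (by linarith) hc u y _ (hpot u huy).hmin f
      have h3 : 0 ≤ |f u - f y| ^ p := Real.rpow_nonneg (abs_nonneg _) _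
      calc en p src dst c E (hh x) * |f u - f y| ^ p
          ≤ en p src dst c E (hh u) * |f u - f y| ^ p := mul_le_mul_of_nonneg_right h1 h3
        _ ≤ _ := h2
  · refine ⟨y, hy, fun g => ?_⟩
    have hz : ∀ u ∈ S, u ≠ y → en p src dst c E (hh u) = 0 := by
      intro u huS huy
      by_contra hne
      apply hPne
      refine ⟨u, ?_⟩
      rw [hP, Finset.mem_filter]
      exact ⟨huS, huy, lt_of_le_of_ne (hcap0 u) (Ne.symm hne)⟩
    rw [Finset.sum_eq_zero]
    · exact CK_nonneg p hp
    · intro j hj
      rw [Finset.mem_filter] at hj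
      obtain ⟨hjE, hinc⟩ := hj
      by_cases hs : src j = y
      · by_cases hd : dst j = y
        · simp [hs, hd, Real.zero_rpow hp0]
        · have h1 := hz (dst j) (hE j hjE).2 hd
          have h2 := c_eq_zero_of_en_eq_zero hc _ h1 j hjE
            (by rw [hs, (hpot _ hd).hx, (hpot _ hd).hy]; norm_num)
          rw [h2]; simp
      · have hd : dst j = y := hinc.resolve_left hs
        have h1 := hz (src j) (hE j hjE).1 hs
        have h2 := c_eq_zero_of_en_eq_zero hc _ h1 j hjE
          (by rw [hd, (hpot _ hs).hx, (hpot _ hs).hy]; norm_num)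
        rw [h2]; simp

omit [DecidableEq V] in
theorem en_mono (hc : ∀ j, 0 ≤ c j) {E' : Finset J} (hsub : E' ⊆ E) (f : V → ℝ) :
    en p src dst c E' f ≤ en p src dst c E f :=
  Finset.sum_le_sum_of_subset_of_nonneg hsub fun j _ _ =>
    mul_nonneg (hc j) (Real.rpow_nonneg (abs_nonneg _) _)

/-- A Foster-type inequality for `p`-energies: the relative contributions of the edges, each tested
against its own function, sum up to at most `CK p` times the number of vertices. -/
theorem foster [Fintype V] [DecidableEq J] (hp : 2 ≤ p) (hc : ∀ j, 0 ≤ c j) (g : J → V → ℝ) :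
    ∀ (n : ℕ) (S : Finset V) (E : Finset J), S.card = n → (∀ j ∈ E, src j ∈ S ∧ dst j ∈ S) →
      ∑ j ∈ E, c j * |g j (src j) - g j (dst j)| ^ p / en p src dst c E (g j) ≤ CK p * n := by
  intro n
  induction n with
  | zero =>
    intro S E hS hE
    rw [Finset.card_eq_zero] at hS
    have : E = ∅ := by
      rw [Finset.eq_empty_iff_forall_notMem]
      intro j hj
      have := (hE j hj).1
      rw [hS] at this
      simp at this
    rw [this]; simp
  | succ n ih =>
    intro S E hS hE
    have hSne : S.Nonempty := by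
      rw [← Finset.card_pos]; omega
    obtain ⟨x, hxS, hx⟩ := exists_good_vertex hp hc S hSne hE
    set E' := E.filter (fun j => ¬ (src j = x ∨ dst j = x)) with hE'
    have hsub : E' ⊆ E := Finset.filter_subset _ _
    have hih := ih (S.erase x) E' (by rw [Finset.card_erase_of_mem hxS, hS]; rfl) (by
      intro j hj
      rw [hE', Finset.mem_filter] at hj
      obtain ⟨hjE, hn⟩ := hj
      push Not at hn
      exact ⟨Finset.mem_erase.mpr ⟨hn.1, (hE j hjE).1⟩, Finset.mem_erase.mpr ⟨hn.2, (hE j hjE).2⟩⟩)
    rw [← Finset.sum_filter_add_sum_filter_not E (fun j => src j = x ∨ dst j = x)]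
    have h2 : ∑ j ∈ E', c j * |g j (src j) - g j (dst j)| ^ p / en p src dst c E (g j) ≤
        ∑ j ∈ E', c j * |g j (src j) - g j (dst j)| ^ p / en p src dst c E' (g j) := by
      refine Finset.sum_le_sum fun j hj => ?_
      have hnum : 0 ≤ c j * |g j (src j) - g j (dst j)| ^ p :=
        mul_nonneg (hc j) (Real.rpow_nonneg (abs_nonneg _) _)
      rcases (en_nonneg (p := p) (src := src) (dst := dst) (E := E') hc (g j)).eq_or_lt with h0 | h0
      · have h1 := term_le_en (p := p) (src := src) (dst := dst) hc (g j) j hj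
        rw [← h0] at h1
        have h3 : c j * |g j (src j) - g j (dst j)| ^ p = 0 := le_antisymm h1 hnum
        rw [h3]; simp
      · exact div_le_div_of_nonneg_left hnum h0 (en_mono hc hsub _)
    have h1 := hx g
    push_cast
    linarith

end

end Vale.Agent.Lib.P249
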