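import Vale.Agent.Lib.P249.Sensitivity

namespace Vale.Agent.Lib.P249

open Finset

section

variable {X J : Type} [Fintype X] [DecidableEq X] [Fintype J] [DecidableEq J]

theorem exists_sparse (p : ℝ) (x : X → J → ℝ) (hp : 1 ≤ p) (ε : ℝ) (hε0 : 0 < ε) (hε1 : ε ≤ 1)
    (σ : J → ℝ) (hσ0 : ∀ j, 0 ≤ σ j) (hσ : ∀ a b j, vv p x a b j ≤ σ j * TT p x a b)
    (Zb : ℝ) (hZ : ∑ j, σ j ≤ Zb) (hX : 1 ≤ Fintype.card X) (N : ℕ)
    (hN : 4 * Zb * Real.log (2 * (Fintype.card X : ℝ) ^ 2) / ε ^ 2 < N) :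
    ∃ (A : (J → ℝ) →ₗ[ℝ] (Fin N → ℝ)) (θ : ℝ), 0 < θ ∧ ∀ a b,
      (1 - ε) * θ * TT p x a b ≤ ∑ i, |A (x a) i - A (x b) i| ^ p ∧
      ∑ i, |A (x a) i - A (x b) i| ^ p ≤ (1 + ε) * θ * TT p x a b := by
  have hp0 : p ≠ 0 := by linarith
  set Z := ∑ j, σ j with hZdef
  have hZ0 : 0 ≤ Z := Finset.sum_nonneg fun j _ => hσ0 j
  rcases eq_or_lt_of_le hZ0 with hZz | hZpos
  · -- all points coincide
    have hσz : ∀ j, σ j = 0 := fun j =>
      (Finset.sum_eq_zero_iff_of_nonneg fun j _ => hσ0 j).mp hZz.symm j (mem_univ j)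
    have hT : ∀ a b, TT p x a b = 0 := by
      intro a b
      unfold TT
      refine Finset.sum_eq_zero fun j _ => ?_
      have := hσ a b j
      rw [hσz j, zero_mul] at this
      exact le_antisymm this (vv_nonneg p x a b j)
    refine ⟨0, 1, one_pos, fun a b => ?_⟩
    rw [hT a b]
    simp [Real.zero_rpow hp0]
  have hn1 : (1 : ℝ) ≤ (Fintype.card X : ℝ) := by exact_mod_cast hX
  have hlogpos : 0 < Real.log (2 * (Fintype.card X : ℝ) ^ 2) := by
    apply Real.log_pos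
    nlinarith
  classical
  let P := {e : X × X // TT p x e.1 e.2 ≠ 0}
  set w : J → ℝ := fun j => σ j / Z with hw
  set u : P → J → ℝ := fun e j => vv p x e.1.1 e.1.2 j / (σ j * TT p x e.1.1 e.1.2) with hu
  have hw0 : ∀ j, 0 ≤ w j := fun j => div_nonneg (hσ0 j) hZ0
  have hw1 : ∑ j, w j = 1 := by
    simp only [hw]
    rw [← Finset.sum_div, div_self hZpos.ne']
  have hu0 : ∀ e j, 0 ≤ u e j := fun e j =>
    div_nonneg (vv_nonneg p x _ _ j) (mul_nonneg (hσ0 j) (TT_nonneg p x _ _))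
  have hu1 : ∀ e j, u e j ≤ 1 := fun e j =>
    div_le_one_of_le₀ (hσ _ _ j) (mul_nonneg (hσ0 j) (TT_nonneg p x _ _))
  have hμ : ∀ e : P, ∑ j, w j * u e j = 1 / Z := by
    intro e
    have hTe : TT p x e.1.1 e.1.2 ≠ 0 := e.2
    have hterm : ∀ j, w j * u e j = vv p x e.1.1 e.1.2 j / (Z * TT p x e.1.1 e.1.2) := by
      intro j
      simp only [hw, hu]
      by_cases hs : σ j = 0
      · have h1 := hσ e.1.1 e.1.2 j
        rw [hs, zero_mul] at h1
        have h2 : vv p x e.1.1 e.1.2 j = 0 := le_antisymm h1 (vv_nonneg p x _ _ j)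
        rw [h2, hs]; simp
      · field_simp
    simp_rw [hterm]
    rw [← Finset.sum_div]
    change TT p x e.1.1 e.1.2 / (Z * TT p x e.1.1 e.1.2) = 1 / Z
    field_simp
  have hNpos : (0 : ℝ) < N := by
    refine lt_of_le_of_lt ?_ hN
    have : 0 ≤ Zb := hZ0.trans hZ
    positivity
  have hcardP : (Fintype.card P : ℝ) ≤ (Fintype.card X : ℝ) ^ 2 := by
    have h1 : Fintype.card P ≤ Fintype.card (X × X) := Fintype.card_subtype_le _
    rw [Fintype.card_prod] at h1
    have : (Fintype.card P : ℝ) ≤ ((Fintype.card X * Fintype.card X : ℕ) : ℝ) := by exact_mod_cast h1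
    rw [sq]; push_cast at this; exact this
  have hexp : 2 * (Fintype.card P : ℝ) * Real.exp (-(N * (1 / Z) * ε ^ 2 / 4)) < 1 := by
    have h1 : Real.log (2 * (Fintype.card X : ℝ) ^ 2) < N * (1 / Z) * ε ^ 2 / 4 := by
      have h2 : 4 * Z * Real.log (2 * (Fintype.card X : ℝ) ^ 2) / ε ^ 2 < N := by
        refine lt_of_le_of_lt ?_ hN
        apply div_le_div_of_nonneg_right _ (by positivity)
        apply mul_le_mul_of_nonneg_right _ hlogpos.le
        linarith
      rw [div_lt_iff₀ (by positivity)] at h2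
      have h3 : (N : ℝ) * (1 / Z) * ε ^ 2 / 4 = (N * ε ^ 2) / (4 * Z) := by field_simp
      rw [h3, lt_div_iff₀ (by positivity)]
      linarith
    have h4 : Real.exp (-(N * (1 / Z) * ε ^ 2 / 4)) <
        Real.exp (-Real.log (2 * (Fintype.card X : ℝ) ^ 2)) := by
      apply Real.exp_lt_exp.mpr; linarith
    have hpos2 : (0 : ℝ) < 2 * (Fintype.card X : ℝ) ^ 2 := by positivity
    rw [Real.exp_neg (Real.log _), Real.exp_log hpos2] at h4
    calc 2 * (Fintype.card P : ℝ) * Real.exp (-(N * (1 / Z) * ε ^ 2 / 4))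
        ≤ 2 * (Fintype.card X : ℝ) ^ 2 * Real.exp (-(N * (1 / Z) * ε ^ 2 / 4)) := by
          apply mul_le_mul_of_nonneg_right _ (Real.exp_pos _).le
          linarith
      _ < 2 * (Fintype.card X : ℝ) ^ 2 * (2 * (Fintype.card X : ℝ) ^ 2)⁻¹ :=
          mul_lt_mul_of_pos_left h4 hpos2
      _ = 1 := mul_inv_cancel₀ hpos2.ne'
  obtain ⟨f, hf⟩ := exists_good_sample w hw0 hw1 u hu0 hu1 (1 / Z) (by positivity) hμ ε hε0 hε1 N hexp
  refine ⟨LinearMap.pi (fun i => ((1 / σ (f i)) ^ (1 / p)) • LinearMap.proj (f i)),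
    N * (1 / Z), by positivity, fun a b => ?_⟩
  have hterm : ∀ i, |(LinearMap.pi (fun i => ((1 / σ (f i)) ^ (1 / p)) •
        (LinearMap.proj (f i) : (J → ℝ) →ₗ[ℝ] ℝ))) (x a) i -
      (LinearMap.pi (fun i => ((1 / σ (f i)) ^ (1 / p)) •
        (LinearMap.proj (f i) : (J → ℝ) →ₗ[ℝ] ℝ))) (x b) i| ^ p
      = vv p x a b (f i) / σ (f i) := by
    intro i
    simp only [LinearMap.pi_apply, LinearMap.smul_apply, LinearMap.proj_apply, smul_eq_mul]
    rw [mul_comm _ (x a (f i)), mul_comm _ (x b (f i))]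
    have hc : 0 ≤ 1 / σ (f i) := by
      have := hσ0 (f i)
      positivity
    rw [← sub_mul, abs_mul, abs_of_nonneg (Real.rpow_nonneg hc _),
      Real.mul_rpow (abs_nonneg _) (Real.rpow_nonneg hc _), one_div p, Real.rpow_inv_rpow hc hp0]
    unfold vv
    ring
  simp_rw [hterm]
  by_cases hT : TT p x a b = 0
  · have : ∀ i, vv p x a b (f i) / σ (f i) = 0 := fun i => by
      rw [vv_eq_zero_of_TT p x a b hT]; simp
    simp [this, hT]
  · have hsum : ∑ i, vv p x a b (f i) / σ (f i) = TT p x a b * ∑ i, u ⟨(a, b), hT⟩ (f i) := by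
      rw [Finset.mul_sum]
      refine Finset.sum_congr rfl fun i _ => ?_
      simp only [hu]
      field_simp
    have hTpos : 0 < TT p x a b := lt_of_le_of_ne (TT_nonneg p x a b) (Ne.symm hT)
    obtain ⟨h1, h2⟩ := hf ⟨(a, b), hT⟩
    rw [hsum]
    constructor
    · have := mul_le_mul_of_nonneg_left h1.le hTpos.le
      linarith
    · have := mul_le_mul_of_nonneg_left h2.le hTpos.le
      linarith

end

end Vale.Agent.Lib.P249
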