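import Vale.Agent.Lib.P249.Defs
import Vale.Agent.Lib.P249.Sample

namespace Vale.Agent.Lib.P249

open Finset

theorem LinearlyEmbedsInto.embedsInto {p D : ℝ} {n m d : ℕ} {x : Fin n → Fin m → ℝ}
    (h : LinearlyEmbedsInto p D x d) : EmbedsInto p D x d := by
  obtain ⟨A, s, hs, hA⟩ := h
  exact ⟨fun a => A (x a), s, hs, hA⟩

theorem lpNorm_sub_eq (p : ℝ) {n m : ℕ} (x : Fin n → Fin m → ℝ) (a b : Fin n) :
    lpNorm p (x a - x b) = (TT p x a b) ^ (1 / p) := rfl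

theorem embedsInto_of_lt (p D : ℝ) (hp : 1 ≤ p) (hD : 1 < D) (n : ℕ) (hn : 1 ≤ n) (N : ℕ)
    (hN : 4 * (2 ^ (p - 1) * ((Nat.log 2 n + 1 : ℕ) : ℝ) ^ p *
      (((Nat.log 2 n + 1) * (n * (Nat.log 2 n + 2 + 1)) : ℕ) : ℝ)) * Real.log (2 * (n : ℝ) ^ 2) /
        ((D ^ p - 1) / (D ^ p + 1)) ^ 2 < N)
    (m : ℕ) (x : Fin n → Fin m → ℝ) : LinearlyEmbedsInto p D x N := by
  have hp0 : p ≠ 0 := by linarith
  have hppos : 0 < p := by linarith
  have hDp : 1 < D ^ p := Real.one_lt_rpow hD hppos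
  set ε : ℝ := (D ^ p - 1) / (D ^ p + 1) with hε
  have hε0 : 0 < ε := by
    apply div_pos <;> linarith
  have hε1 : ε < 1 := by
    rw [hε, div_lt_one (by linarith)]; linarith
  have hk : Fintype.card (Fin n) < 2 ^ (Nat.log 2 n + 1) := by
    rw [Fintype.card_fin]; exact Nat.lt_pow_succ_log_self (by norm_num) n
  have hs : 2 * Fintype.card (Fin n) < 2 ^ (Nat.log 2 n + 2) := by
    rw [pow_succ]; omega
  obtain ⟨σ, hσ0, hσ, hσsum⟩ := exists_sensitivity p x hp (Nat.log 2 n + 2) (Nat.log 2 n + 1) hs hk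
    (by omega)
  rw [Fintype.card_fin] at hσsum
  obtain ⟨g, θ, hθ, hg⟩ := exists_sparse p x hp ε hε0 hε1.le σ hσ0 hσ _ hσsum
    (by rw [Fintype.card_fin]; exact hn) N (by rw [Fintype.card_fin]; exact hN)
  have h1ε : 0 < 1 - ε := by linarith
  have hinv : 0 ≤ 1 / p := by positivity
  refine ⟨g, ((1 - ε) * θ) ^ (1 / p), Real.rpow_pos_of_pos (by positivity) _, fun a b => ?_⟩
  obtain ⟨hlo, hhi⟩ := hg a b
  have hT := TT_nonneg p x a b
  have hgn : lpNorm p (g (x a) - g (x b)) = (∑ i, |g (x a) i - g (x b) i| ^ p) ^ (1 / p) := rfl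
  rw [lpNorm_sub_eq, hgn]
  constructor
  · rw [← Real.mul_rpow (by positivity) hT]
    exact Real.rpow_le_rpow (by positivity) hlo hinv
  · have h1 : (1 + ε) = D ^ p * (1 - ε) := by
      rw [hε]; field_simp; ring
    have hD0 : 0 ≤ D := by linarith
    have h2 : D * ((1 - ε) * θ) ^ (1 / p) * (TT p x a b) ^ (1 / p) =
        ((1 + ε) * θ * TT p x a b) ^ (1 / p) := by
      rw [h1, mul_assoc (D ^ p), mul_assoc (D ^ p),
        Real.mul_rpow (Real.rpow_nonneg hD0 _) (by positivity),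
        Real.mul_rpow (by positivity) hT, one_div, Real.rpow_rpow_inv hD0 hp0]
      ring
    rw [h2]
    exact Real.rpow_le_rpow (Finset.sum_nonneg fun i _ => Real.rpow_nonneg (abs_nonneg _) _) hhi hinv

end Vale.Agent.Lib.P249
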