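import Vale.Agent.Lib.P249.Foster

namespace Vale.Agent.Lib.P249

open Finset

section

variable {J : Type} [Fintype J]

/-- Iterates of `A / 2` applied to the all-ones vector. -/
noncomputable def nd (A : J → J → ℝ) : ℕ → J → ℝ
  | 0 => fun _ => 1
  | k + 1 => fun i => (1 / 2) * ∑ j, A i j * nd A k j

theorem nd_nonneg (A : J → J → ℝ) (hA : ∀ i j, 0 ≤ A i j) (k : ℕ) (i : J) : 0 ≤ nd A k i := by
  induction k generalizing i with
  | zero => simp [nd]
  | succ k ih =>
    simp only [nd]
    exact mul_nonneg (by norm_num) (Finset.sum_nonneg fun j _ => mul_nonneg (hA i j) (ih j))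

theorem nd_sum_le (A : J → J → ℝ) (hA : ∀ i j, 0 ≤ A i j) (hcol : ∀ j, ∑ i, A i j ≤ 1) (k : ℕ) :
    ∑ i, nd A k i ≤ (Fintype.card J : ℝ) / 2 ^ k := by
  induction k with
  | zero => simp [nd]
  | succ k ih =>
    simp only [nd]
    rw [← Finset.mul_sum, Finset.sum_comm]
    have h1 : ∑ j, ∑ i, A i j * nd A k j ≤ ∑ j, nd A k j := by
      refine Finset.sum_le_sum fun j _ => ?_
      rw [← Finset.sum_mul]
      calc (∑ i, A i j) * nd A k j ≤ 1 * nd A k j :=
            mul_le_mul_of_nonneg_right (hcol j) (nd_nonneg A hA k j)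
        _ = nd A k j := one_mul _
    calc (1 / 2 : ℝ) * ∑ j, ∑ i, A i j * nd A k j ≤ (1 / 2) * ((Fintype.card J : ℝ) / 2 ^ k) :=
          mul_le_mul_of_nonneg_left (h1.trans ih) (by norm_num)
      _ = (Fintype.card J : ℝ) / 2 ^ (k + 1) := by rw [pow_succ]; field_simp

/-- For a nonnegative matrix with column sums at most one there is a vector `t ≥ 1` with
`A t ≤ 2 t`. -/
theorem exists_weights (A : J → J → ℝ) (hA : ∀ i j, 0 ≤ A i j) (hcol : ∀ j, ∑ i, A i j ≤ 1) :
    ∃ t : J → ℝ, (∀ j, 1 ≤ t j) ∧ ∀ i, ∑ j, A i j * t j ≤ 2 * t i := by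
  set K := Fintype.card J with hK
  refine ⟨fun i => ∑ l ∈ range (K + 1), nd A l i, fun j => ?_, fun i => ?_⟩
  · show 1 ≤ ∑ l ∈ range (K + 1), nd A l j
    rw [Finset.sum_range_succ']
    have : 0 ≤ ∑ l ∈ range K, nd A (l + 1) j := Finset.sum_nonneg fun l _ => nd_nonneg A hA _ j
    have h5 : nd A 0 j = 1 := rfl
    linarith
  · have h1 : ∑ j, A i j * ∑ l ∈ range (K + 1), nd A l j =
        2 * ∑ l ∈ range (K + 1), nd A (l + 1) i := by
      simp only [Finset.mul_sum]
      rw [Finset.sum_comm]
      refine Finset.sum_congr rfl fun l _ => ?_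
      simp only [nd]
      ring
    have h2 : ∑ l ∈ range (K + 1), nd A (l + 1) i =
        ∑ l ∈ range (K + 1), nd A l i + nd A (K + 1) i - 1 := by
      have h3 := Finset.sum_range_succ' (fun l => nd A l i) (K + 1)
      have h4 := Finset.sum_range_succ (fun l => nd A l i) (K + 1)
      have h5 : nd A 0 i = 1 := rfl
      linarith
    have h6 : nd A (K + 1) i ≤ 1 := by
      have h7 : nd A (K + 1) i ≤ ∑ i, nd A (K + 1) i :=
        Finset.single_le_sum (f := fun i => nd A (K + 1) i) (fun i _ => nd_nonneg A hA _ i)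
          (mem_univ i)
      have h8 := nd_sum_le A hA hcol (K + 1)
      have h9 : (Fintype.card J : ℝ) / 2 ^ (K + 1) ≤ 1 := by
        rw [div_le_one (by positivity)]
        have : K < 2 ^ K := Nat.lt_two_pow_self
        have h10 : (K : ℝ) ≤ 2 ^ K := by exact_mod_cast this.le
        rw [pow_succ]
        have : (0 : ℝ) < 2 ^ K := by positivity
        linarith
      linarith
    rw [h1, h2]
    linarith

end

section

variable {X J : Type} [Fintype X] [DecidableEq X] [Fintype J] [DecidableEq J]

/-- Linear total sensitivity: for `p ≥ 2` there are coordinate weights `σ` dominating all relative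
coordinate contributions of all pairs, of total mass at most `2 CK(p) |X|`. -/
theorem exists_sensitivity_linear (p : ℝ) (x : X → J → ℝ) (hp : 2 ≤ p) :
    ∃ σ : J → ℝ, (∀ j, 0 ≤ σ j) ∧ (∀ a b j, vv p x a b j ≤ σ j * TT p x a b) ∧
      ∑ j, σ j ≤ 2 * CK p * (Fintype.card X : ℝ) := by
  rcases isEmpty_or_nonempty X with hX | hX
  · refine ⟨fun _ => 0, fun _ => le_rfl, fun a => (hX.false a).elim, ?_⟩
    simp
  set r : X × X → J → ℝ := fun e j => vv p x e.1 e.2 j / TT p x e.1 e.2 with hr
  have hr0 : ∀ e j, 0 ≤ r e j := fun e j => div_nonneg (vv_nonneg p x _ _ j) (TT_nonneg p x _ _)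
  have hex : ∀ j, ∃ e : X × X, ∀ e' : X × X, r e' j ≤ r e j := by
    intro j
    obtain ⟨e, _, he⟩ := Finset.exists_max_image (univ : Finset (X × X)) (fun e => r e j)
      Finset.univ_nonempty
    exact ⟨e, fun e' => he e' (mem_univ _)⟩
  choose e he using hex
  obtain ⟨t, ht1, ht⟩ := exists_weights (fun i j => r (e j) i) (fun i j => hr0 _ _) (by
    intro j
    simp only [hr]
    rw [← Finset.sum_div]
    exact div_self_le_one _)
  set c : J → ℝ := fun j => t j / TT p x (e j).1 (e j).2 with hc
  have hc0 : ∀ j, 0 ≤ c j := fun j =>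
    div_nonneg (by linarith [ht1 j]) (TT_nonneg p x _ _)
  set g : J → X → ℝ := fun j v => x v j with hg
  have hen : ∀ i, en p (fun j => (e j).1) (fun j => (e j).2) c univ (g i) =
      ∑ j, r (e j) i * t j := by
    intro i
    unfold en
    refine Finset.sum_congr rfl fun j _ => ?_
    simp only [hc, hg, hr, vv]
    ring
  have hF := foster (src := fun j => (e j).1) (dst := fun j => (e j).2) hp hc0 g
    (Fintype.card X) univ univ Finset.card_univ (fun j _ => ⟨mem_univ _, mem_univ _⟩)
  refine ⟨fun j => r (e j) j, fun j => hr0 _ _, fun a b j => ?_, ?_⟩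
  · calc vv p x a b j ≤ r (a, b) j * TT p x a b := vv_le_div_mul p x a b j
      _ ≤ r (e j) j * TT p x a b := mul_le_mul_of_nonneg_right (he j (a, b)) (TT_nonneg p x a b)
  · have hterm : ∀ j ∈ (univ : Finset J), r (e j) j / 2 ≤
        c j * |g j (e j).1 - g j (e j).2| ^ p /
          en p (fun j => (e j).1) (fun j => (e j).2) c univ (g j) := by
      intro j _
      have hnum : c j * |g j (e j).1 - g j (e j).2| ^ p = t j * r (e j) j := by
        simp only [hc, hg, hr, vv]; ring
      have htj : 0 < t j := by linarith [ht1 j]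
      have hle := term_le_en (p := p) (src := fun j => (e j).1) (dst := fun j => (e j).2)
        hc0 (g j) j (mem_univ j)
      rw [hnum] at hle ⊢
      rcases (en_nonneg (p := p) (src := fun j => (e j).1) (dst := fun j => (e j).2)
        (E := univ) hc0 (g j)).eq_or_lt with h0 | h0
      · rw [← h0] at hle ⊢
        have : r (e j) j = 0 := by
          have := hr0 (e j) j
          nlinarith
        rw [this]; simp
      · rw [le_div_iff₀ h0]
        have h2 := ht j
        rw [← hen j] at h2
        have := hr0 (e j) j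
        nlinarith
    have hsum := (Finset.sum_le_sum hterm).trans hF
    rw [← Finset.sum_div] at hsum
    linarith

end

end Vale.Agent.Lib.P249
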