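import Vale.Agent.Lib.P249.Main
import Vale.Agent.Lib.P249.Weights

namespace Vale.Agent.Lib.P249

open Finset

theorem embedsInto_of_lt' (p D : ℝ) (hp : 2 ≤ p) (hD : 1 < D) (n : ℕ) (hn : 1 ≤ n) (N : ℕ)
    (hN : 4 * (2 * CK p * (n : ℝ)) * Real.log (2 * (n : ℝ) ^ 2) /
        ((D ^ p - 1) / (D ^ p + 1)) ^ 2 < N)
    (m : ℕ) (x : Fin n → Fin m → ℝ) : LinearlyEmbedsInto p D x N := by
  have hp0 : p ≠ 0 := by linarith
  have hppos : 0 < p := by linarith
  have hp1 : 1 ≤ p := by linarith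
  have hDp : 1 < D ^ p := Real.one_lt_rpow hD hppos
  set ε : ℝ := (D ^ p - 1) / (D ^ p + 1) with hε
  have hε0 : 0 < ε := by
    apply div_pos <;> linarith
  have hε1 : ε < 1 := by
    rw [hε, div_lt_one (by linarith)]; linarith
  obtain ⟨σ, hσ0, hσ, hσsum⟩ := exists_sensitivity_linear p x hp
  rw [Fintype.card_fin] at hσsum
  obtain ⟨g, θ, hθ, hg⟩ := exists_sparse p x hp1 ε hε0 hε1.le σ hσ0 hσ _ hσsum
    (by rw [Fintype.card_fin]; exact hn) N (by rw [Fintype.card_fin]; exact hN)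
  have h1ε : 0 < 1 - ε := by linarith
  have hinv : 0 ≤ 1 / p := by positivity
  refine ⟨g, ((1 - ε) * θ) ^ (1 / p), Real.rpow_pos_of_pos (by positivity) _, fun a b => ?_⟩
  obtain ⟨hlo, hhi⟩ := hg a b
  have hT := TT_nonneg p x a b
  have hgn : lpNorm p (g (x a) - g (x b)) = (∑ i, |g (x a) i - g (x b) i| ^ p) ^ (1 / p) := rfl
  rw [lpNorm_sub_eq, hgn]
  constructor
  · rw [← Real.mul_rpow (by positivity) hT]
    exact Real.rpow_le_rpow (by positivity) hlo hinv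
  · have h1 : (1 + ε) = D ^ p * (1 - ε) := by
      rw [hε]; field_simp; ring
    have hD0 : 0 ≤ D := by linarith
    have h2 : D * ((1 - ε) * θ) ^ (1 / p) * (TT p x a b) ^ (1 / p) =
        ((1 + ε) * θ * TT p x a b) ^ (1 / p) := by
      rw [h1, mul_assoc (D ^ p), mul_assoc (D ^ p),
        Real.mul_rpow (Real.rpow_nonneg hD0 _) (by positivity),
        Real.mul_rpow (by positivity) hT, one_div, Real.rpow_rpow_inv hD0 hp0]
      ring
    rw [h2]
    exact Real.rpow_le_rpow (Finset.sum_nonneg fun i _ => Real.rpow_nonneg (abs_nonneg _) _) hhi hinv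

/-- The explicit dimension bound of order `n log n`. -/
noncomputable def dimBound' (p D : ℝ) (n : ℕ) : ℝ :=
  32 * p * 9 ^ p * ((D ^ p + 1) / (D ^ p - 1)) ^ 2 * n * Real.log (2 * (n : ℝ) ^ 2)

theorem raw_eq_dimBound' (p D : ℝ) (hp : 2 ≤ p) (hD : 1 < D) (n : ℕ) :
    4 * (2 * CK p * (n : ℝ)) * Real.log (2 * (n : ℝ) ^ 2) /
        ((D ^ p - 1) / (D ^ p + 1)) ^ 2 = dimBound' p D n := by
  have hppos : 0 < p := by linarith
  have hDp : 1 < D ^ p := Real.one_lt_rpow hD hppos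
  have h9 : (9 : ℝ) ^ p = 3 ^ p * 3 ^ p := by
    rw [← Real.mul_rpow (by norm_num) (by norm_num)]; norm_num
  unfold dimBound' CK
  rw [h9]
  have hd1 : D ^ p - 1 ≠ 0 := by linarith
  have hd2 : D ^ p + 1 ≠ 0 := by linarith
  field_simp
  ring

theorem embedsInto_dimBound' (p D : ℝ) (hp : 2 ≤ p) (hD : 1 < D) (n : ℕ) (hn : 1 ≤ n)
    (m : ℕ) (x : Fin n → Fin m → ℝ) : LinearlyEmbedsInto p D x (⌊dimBound' p D n⌋₊ + 1) := by
  apply embedsInto_of_lt' p D hp hD n hn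
  rw [raw_eq_dimBound' p D hp hD n]
  push_cast
  exact Nat.lt_floor_add_one _

theorem dimBound'_nonneg (p D : ℝ) (hp : 2 ≤ p) (n : ℕ) (hn : 1 ≤ n) : 0 ≤ dimBound' p D n := by
  unfold dimBound'
  have h1 : (1 : ℝ) ≤ n := by exact_mod_cast hn
  have : 0 ≤ Real.log (2 * (n : ℝ) ^ 2) := Real.log_nonneg (by nlinarith)
  have h9 : (0 : ℝ) < 9 ^ p := Real.rpow_pos_of_pos (by norm_num) _
  positivity

theorem dimRed_le' (p D : ℝ) (hp : 2 ≤ p) (hD : 1 < D) (n : ℕ) (hn : 1 ≤ n) :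
    (dimRed p n D : ℝ) ≤ dimBound' p D n + 1 := by
  have h1 : dimRed p n D ≤ ⌊dimBound' p D n⌋₊ + 1 :=
    Nat.sInf_le fun m x _ => (embedsInto_dimBound' p D hp hD n hn m x).embedsInto
  have h2 : ((⌊dimBound' p D n⌋₊ + 1 : ℕ) : ℝ) ≤ dimBound' p D n + 1 := by
    push_cast
    have := Nat.floor_le (dimBound'_nonneg p D hp n hn)
    linarith
  exact le_trans (by exact_mod_cast h1) h2

end Vale.Agent.Lib.P249
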